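import Vale.Agent.P215Z.Top.Emb.Glue

/-!
# P215: points in the plumbing cubes
-/

noncomputable section

namespace Vale.Agent.P215Z.Emb

open P215.H788 Set

theorem thR_mem {i : Fin 3} {y : R4} (h : y ∈ Qo (i, true)) : thR i y ∈ Qo (i, false) := fun j => by
  obtain ⟨h1, h2⟩ := h (ppi i j)
  simp only [thR]
  push_cast
  constructor <;> linarith

/-- the torus does not meet the plate in the tube -/
theorem tor_not {x : E} (h : RH x) (h1 : (tor x).1 < -2) (h2 : -38 < (tor x).1)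
    (h3 : 0 < (tor x).2.1) (h4 : (tor x).2.1 < 36) (h5 : 0 < (tor x).2.2) (h6 : (tor x).2.2 < 36) :
    False := by
  obtain ⟨r0, -⟩ := rad_mem h
  obtain ⟨-, -, a⟩ := sig_bd r0 h.1
  obtain ⟨c, d⟩ := h.2.2.2.1
  obtain ⟨-, -, b⟩ := sig_bd (r := x.2.2.1 - 1) (by linarith) h.2.1
  simp only [tor] at h1 h2 h3 h4 h5 h6
  have e : rad x = 2 + psi (x.2.2.1 - 1) x.2.1.1 := rfl
  have e' : hgt x = psi (x.2.2.1 - 1) x.2.1.2 := rfl
  rcases a with a | a | a | a <;> rcases b with b | b | b | b <;> linarith [a.2, b.2]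

theorem tor_not' {x : E} (h : RH x) (h1 : 0 < (tor x).1) (h2 : (tor x).1 < 36)
    (h3 : 0 < (tor x).2.1) (h4 : (tor x).2.1 < 36) : False := by
  obtain ⟨r0, -⟩ := rad_mem h
  obtain ⟨-, -, a⟩ := sig_bd r0 h.1
  simp only [tor] at h1 h2 h3 h4
  rcases a with a | a | a | a <;> linarith [a.2]

theorem nb1_rg {x : E} (h : RB x) : 0 ≤ (nb1 x).1 ∧ (nb1 x).2.2 ≤ 43 := by
  obtain ⟨a, b⟩ := mm_mem h
  obtain ⟨c, -⟩ := sq1_mem (m := mm x.2.2.1 (zz x)) (by linarith)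
    (th_mem (dd_mem h.1 h.2.1).1).1.1
  obtain ⟨-, d⟩ := zz_mem h
  obtain ⟨e, -⟩ := h.2.2.2.1
  simp only [nb1]
  constructor <;> linarith

theorem cap_a {x : G0.Pts} (h1 : -19 / 2 < (nat x.1.1 x.1.2).1) (h2 : (nat x.1.1 x.1.2).1 < -5 / 2)
    (h3 : 1 / 2 < (nat x.1.1 x.1.2).2.1) (h4 : (nat x.1.1 x.1.2).2.1 < 7 / 2)
    (h5 : 1 / 2 < (nat x.1.1 x.1.2).2.2) (h6 : (nat x.1.1 x.1.2).2.2 < 7 / 2) :
    x.1.1 = .cap (0, 0, true) ∧ RC x.1.2 := by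
  obtain ⟨⟨c, d⟩, -⟩ := fib x
  rcases pts_cases x with ⟨h, k⟩ | ⟨h, k⟩ | ⟨h, k⟩ | ⟨h, k⟩ | ⟨h, k⟩ | ⟨h, k⟩ | ⟨h, k⟩ <;>
    simp only [h, nat, nb0, sw] at h1 h2 h3 h4 h5 h6
  · linarith
  · linarith [(nb1_rg k).1]
  · exact (tor_not k (by linarith) (by linarith) (by linarith) (by linarith) (by linarith)
      (by linarith)).elim
  · have : -2 ≤ (tor x.1.2).2.2 := (rad_mem k).2.2.1
    linarith
  · exact ⟨h, k⟩
  · linarith
  · linarith [k.1.2.1]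

theorem cap_b {x : G0.Pts} (h1 : 1 / 2 < (nat x.1.1 x.1.2).1) (h2 : (nat x.1.1 x.1.2).1 < 7 / 2)
    (h3 : 1 / 2 < (nat x.1.1 x.1.2).2.1) (h4 : (nat x.1.1 x.1.2).2.1 < 7 / 2)
    (h5 : 203 / 2 < (nat x.1.1 x.1.2).2.2) (h6 : (nat x.1.1 x.1.2).2.2 < 217 / 2) :
    x.1.1 = .cap (1, 0, false) ∧ RC x.1.2 := by
  obtain ⟨⟨c, d⟩, -⟩ := fib x
  rcases pts_cases x with ⟨h, k⟩ | ⟨h, k⟩ | ⟨h, k⟩ | ⟨h, k⟩ | ⟨h, k⟩ | ⟨h, k⟩ | ⟨h, k⟩ <;>
    simp only [h, nat, nb0, sw] at h1 h2 h3 h4 h5 h6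
  · linarith
  · linarith [(nb1_rg k).2]
  · have : (tor x.1.2).2.2 ≤ 38 := (rad_mem k).2.2.2
    linarith
  · exact (tor_not' k (by linarith) (by linarith) (by linarith) (by linarith)).elim
  · linarith [k.1.1.1]
  · exact ⟨h, k⟩
  · linarith [k.1.1.1]

theorem cap_c {x : G0.Pts} (h1 : 1 / 2 < (nat x.1.1 x.1.2).1) (h2 : (nat x.1.1 x.1.2).1 < 7 / 2)
    (h3 : 1 / 2 < (nat x.1.1 x.1.2).2.1) (h4 : (nat x.1.1 x.1.2).2.1 < 7 / 2)
    (h5 : 271 / 2 < (nat x.1.1 x.1.2).2.2) (h6 : (nat x.1.1 x.1.2).2.2 < 285 / 2) :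
    x.1.1 = .cap (1, 0, true) ∧ RC x.1.2 := by
  obtain ⟨⟨c, d⟩, -⟩ := fib x
  rcases pts_cases x with ⟨h, k⟩ | ⟨h, k⟩ | ⟨h, k⟩ | ⟨h, k⟩ | ⟨h, k⟩ | ⟨h, k⟩ | ⟨h, k⟩ <;>
    simp only [h, nat, nb0, sw] at h1 h2 h3 h4 h5 h6
  · linarith
  · linarith [(nb1_rg k).2]
  · have : (tor x.1.2).2.2 ≤ 38 := (rad_mem k).2.2.2
    linarith
  · exact (tor_not k (by linarith) (by linarith) (by linarith) (by linarith) (by linarith)
      (by linarith)).elim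
  · linarith [k.1.1.1]
  · linarith [k.1.1.1]
  · exact ⟨h, k⟩

theorem btw {u : ℝ → ℝ} (hu : StrictMono u) {a b k l t : ℝ} (ha : u a = k) (hb : u b = l)
    (h1 : k < u t) (h2 : u t < l) : a < t ∧ t < b :=
  ⟨hu.lt_iff_lt.1 (ha ▸ h1), hu.lt_iff_lt.1 (hb ▸ h2)⟩

theorem in_a {x : G0.Pts} {s : Bool} (h : emb x ∈ Qo (2, s)) : x.1.1 = .cap (0, 0, true) ∧
    RC x.1.2 ∧ emb x = ![17 / 2 - x.1.2.1.1, x.1.2.2.2.1 + 5 / 2, x.1.2.1.2 + 1 / 2,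
      x.1.2.2.2.2 - 1 / 2] := by
  obtain ⟨-, x1, x8, -⟩ := uX_val
  obtain ⟨-, -, -, y3, y6, -⟩ := uY_val
  obtain ⟨-, z1, z4, -⟩ := uZ_val
  have h0 := h 0
  have h1 := h 1
  have h2 := h 2
  rw [emb_0] at h0
  rw [emb_1] at h1
  rw [emb_2] at h2
  obtain ⟨a1, a2⟩ := btw uX_mono x1 x8 (t := (nat x.1.1 x.1.2).1)
    (by cases s <;> simp [org] at h0 <;> linarith) (by cases s <;> simp [org] at h0 <;> linarith)
  obtain ⟨a3, a4⟩ := btw uY_mono y3 y6 (t := (nat x.1.1 x.1.2).2.1)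
    (by cases s <;> simp [org] at h1 <;> linarith) (by cases s <;> simp [org] at h1 <;> linarith)
  obtain ⟨a5, a6⟩ := btw uZ_mono z1 z4 (t := (nat x.1.1 x.1.2).2.2)
    (by cases s <;> simp [org] at h2 <;> linarith) (by cases s <;> simp [org] at h2 <;> linarith)
  obtain ⟨e, k⟩ := cap_a a1 a2 a3 a4 a5 a6
  refine ⟨e, k, ?_⟩
  rw [emb, uni, uX_a a1.le a2.le, uY_b a3.le a4.le, uZ_a a5.le a6.le, e, nat_c2]
  congr 1
  ring

theorem in_b {x : G0.Pts} {s : Bool} (h : emb x ∈ Qo (0, s)) : x.1.1 = .cap (1, 0, false) ∧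
    RC x.1.2 ∧ emb x = ![x.1.2.2.2.1 + 17 / 2, x.1.2.1.2 + 5 / 2, 117 - x.1.2.1.1 - 189 / 2,
      x.1.2.2.2.2 - 1 / 2] := by
  obtain ⟨-, -, -, x1, x8, -⟩ := uX_val
  obtain ⟨-, -, -, y3, y6, -⟩ := uY_val
  obtain ⟨-, -, -, -, -, z1, z4, -⟩ := uZ_val
  have h0 := h 0
  have h1 := h 1
  have h2 := h 2
  rw [emb_0] at h0
  rw [emb_1] at h1
  rw [emb_2] at h2
  obtain ⟨a1, a2⟩ := btw uX_mono x1 x8 (t := (nat x.1.1 x.1.2).1)
    (by cases s <;> simp [org] at h0 <;> linarith) (by cases s <;> simp [org] at h0 <;> linarith)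
  obtain ⟨a3, a4⟩ := btw uY_mono y3 y6 (t := (nat x.1.1 x.1.2).2.1)
    (by cases s <;> simp [org] at h1 <;> linarith) (by cases s <;> simp [org] at h1 <;> linarith)
  obtain ⟨a5, a6⟩ := btw uZ_mono z1 z4 (t := (nat x.1.1 x.1.2).2.2)
    (by cases s <;> simp [org] at h2 <;> linarith) (by cases s <;> simp [org] at h2 <;> linarith)
  obtain ⟨e, k⟩ := cap_b a1 a2 a3 a4 a5 a6
  refine ⟨e, k, ?_⟩
  rw [emb, uni, uX_b a1.le a2.le, uY_b a3.le a4.le, uZ_b a5.le a6.le, e, nat_c0]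

theorem in_c {x : G0.Pts} {s : Bool} (h : emb x ∈ Qo (1, s)) : x.1.1 = .cap (1, 0, true) ∧
    RC x.1.2 ∧ emb x = ![x.1.2.1.2 + 17 / 2, x.1.2.2.2.1 + 5 / 2, 119 + x.1.2.1.1 - 241 / 2,
      x.1.2.2.2.2 - 1 / 2] := by
  obtain ⟨-, -, -, x1, x8, -⟩ := uX_val
  obtain ⟨-, -, -, y3, y6, -⟩ := uY_val
  obtain ⟨-, -, -, -, -, -, -, z1, z4, -⟩ := uZ_val
  have h0 := h 0
  have h1 := h 1
  have h2 := h 2
  rw [emb_0] at h0
  rw [emb_1] at h1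
  rw [emb_2] at h2
  obtain ⟨a1, a2⟩ := btw uX_mono x1 x8 (t := (nat x.1.1 x.1.2).1)
    (by cases s <;> simp [org] at h0 <;> linarith) (by cases s <;> simp [org] at h0 <;> linarith)
  obtain ⟨a3, a4⟩ := btw uY_mono y3 y6 (t := (nat x.1.1 x.1.2).2.1)
    (by cases s <;> simp [org] at h1 <;> linarith) (by cases s <;> simp [org] at h1 <;> linarith)
  obtain ⟨a5, a6⟩ := btw uZ_mono z1 z4 (t := (nat x.1.1 x.1.2).2.2)
    (by cases s <;> simp [org] at h2 <;> linarith) (by cases s <;> simp [org] at h2 <;> linarith)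
  obtain ⟨e, k⟩ := cap_c a1 a2 a3 a4 a5 a6
  refine ⟨e, k, ?_⟩
  rw [emb, uni, uX_b a1.le a2.le, uY_b a3.le a4.le, uZ_c a5.le a6.le, e, nat_c1]

theorem glue_of {x y : G0.Pts} {a b : Block × E} (h : G0.Glue a b) (h1 : x.1 = a) (h2 : y.1 = b) :
    (Quot.mk _ x : G0.Thickening) = Quot.mk _ y :=
  Quot.sound (by rw [h1, h2]; exact h)

theorem inj2 (x y : G0.Pts) (i : Fin 3) (h : emb x ∈ Qo (i, true)) (h2 : emb y = thR i (emb x)) :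
    (Quot.mk _ x : G0.Thickening) = Quot.mk _ y := by
  have h3 : emb y ∈ Qo (i, false) := h2 ▸ thR_mem h
  obtain ⟨⟨c1, c2⟩, c3, c4⟩ := fib y
  fin_cases i
  · obtain ⟨a1, a2, a3⟩ := in_b h
    obtain ⟨b1, b2, b3⟩ := in_b h3
    rw [a3, b3] at h2
    have e0 := congrFun h2 0
    have e1 := congrFun h2 1
    have e2 := congrFun h2 2
    have e3 := congrFun h2 3
    simp [org, thR, ppi, Equiv.swap_apply_def] at e0 e1 e2 e3
    refine glue_of (.neg 1 (1, 0, false) (1, 0, false) rfl (x.1.2.1.1 - 8, x.1.2.1.2) x.1.2.2.2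
      ⟨⟨by linarith, by linarith⟩, by linarith, by linarith⟩ (fib x))
      (Prod.ext a1 (Prod.ext (Prod.ext ?_ rfl) (Prod.ext a2.2.1 rfl)))
      (Prod.ext b1 (Prod.ext (Prod.ext ?_ ?_) (Prod.ext b2.2.1 (Prod.ext ?_ ?_)))) <;>
    simp only [P215.H788.refl, Nat.cast_one] <;> linarith
  · obtain ⟨a1, a2, a3⟩ := in_c h
    obtain ⟨b1, b2, b3⟩ := in_c h3
    rw [a3, b3] at h2
    have e0 := congrFun h2 0
    have e1 := congrFun h2 1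
    have e2 := congrFun h2 2
    have e3 := congrFun h2 3
    simp [org, thR, ppi, Equiv.swap_apply_def] at e0 e1 e2 e3
    refine glue_of (.pos 2 (1, 0, true) (1, 0, true) rfl (x.1.2.1.1 - 16, x.1.2.1.2) x.1.2.2.2
      ⟨⟨by linarith, by linarith⟩, by linarith, by linarith⟩ (fib x))
      (Prod.ext a1 (Prod.ext (Prod.ext ?_ rfl) (Prod.ext a2.2.1 rfl)))
      (Prod.ext b1 (Prod.ext (Prod.ext ?_ ?_) (Prod.ext b2.2.1 (Prod.ext ?_ ?_)))) <;>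
    simp only [Nat.cast_ofNat] <;> linarith
  · obtain ⟨a1, a2, a3⟩ := in_a h
    obtain ⟨b1, b2, b3⟩ := in_a h3
    rw [a3, b3] at h2
    have e0 := congrFun h2 0
    have e1 := congrFun h2 1
    have e2 := congrFun h2 2
    have e3 := congrFun h2 3
    simp [org, thR, ppi, Equiv.swap_apply_def] at e0 e1 e2 e3
    refine glue_of (.neg 0 (0, 0, true) (0, 0, true) rfl x.1.2.1 x.1.2.2.2
      ⟨⟨by linarith, by linarith⟩, by linarith, by linarith⟩ (fib x))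
      (Prod.ext a1 (Prod.ext (Prod.ext ?_ rfl) (Prod.ext a2.2.1 rfl)))
      (Prod.ext b1 (Prod.ext (Prod.ext ?_ ?_) (Prod.ext b2.2.1 (Prod.ext ?_ ?_)))) <;>
    simp only [P215.H788.refl, Nat.cast_zero] <;> linarith

end Vale.Agent.P215Z.Emb
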