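import Vale.Agent.P215Z.Top.Emb.Box

/-!
# P215: range estimates for the natural coordinates
-/

noncomputable section

namespace Vale.Agent.P215Z.EmbC

open P215.H788 Set

/-- the stretching of the ends of the interval -/
def ps (r y : ℝ) : ℝ := y - r * max 0 (1 - y) + r * max 0 (y - 35)

theorem ps_zero (r : ℝ) : ps r 0 = -r := by
  rw [ps, max_eq_right (by norm_num), max_eq_left (by norm_num)]; ring

theorem ps_top (r : ℝ) : ps r 36 = 36 + r := by
  rw [ps, max_eq_left (by norm_num), max_eq_right (by norm_num)]; ring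

theorem ps_le {r y : ℝ} (hr : 0 ≤ r) (hy : y ≤ 1) : ps r y ≤ y := by
  rw [ps, max_eq_right (by linarith), max_eq_left (by linarith)]
  nlinarith

theorem le_ps {r y : ℝ} (hr : 0 ≤ r) (hy : 1 ≤ y) : y ≤ ps r y := by
  rw [ps, max_eq_left (by linarith)]
  nlinarith [le_max_left 0 (y - 35)]

theorem ps_rng {r y : ℝ} (hr : 0 ≤ r) (hy : y ∈ Icc (0:ℝ) 36) : -r ≤ ps r y ∧ ps r y ≤ 36 + r := by
  have h1 : max 0 (1 - y) ≤ 1 := max_le zero_le_one (by linarith [hy.1])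
  have h2 : max 0 (y - 35) ≤ 1 := max_le zero_le_one (by linarith [hy.2])
  have h3 := le_max_left 0 (1 - y)
  have h4 := le_max_left 0 (y - 35)
  rw [ps]
  constructor <;> nlinarith [hy.1, hy.2]

theorem ps_mid {r y : ℝ} (hr : 0 ≤ r) (h1 : 1 < ps r y) (h3 : ps r y < 3) : y ∈ Ioo (1:ℝ) 3 := by
  have h4 : 1 < y := by
    by_contra h
    linarith [ps_le hr (not_lt.1 h)]
  exact ⟨h4, by linarith [le_ps hr h4.le]⟩

theorem torF {p q : ℝ × ℝ} {s : ℝ} (hp : p ∈ bdSq 36) (hq : q ∈ bdSq 36)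
    (hh : ¬ (p.1 = 36 ∧ q.1 = 36 ∧ p.2 ∈ Ioo (1:ℝ) 3 ∧ q.2 ∈ Ioo (1:ℝ) 3)) (h0 : 0 ≤ s)
    (h2 : s ≤ 2) : TorF (ps (2 + ps s q.1) p.1) (ps (2 + ps s q.1) p.2) (ps s q.2)
      (2 + ps s q.1) := by
  obtain ⟨a1, a2⟩ := ps_rng h0 hq.1.1
  obtain ⟨b1, b2⟩ := ps_rng h0 hq.1.2
  have hr : 0 ≤ 2 + ps s q.1 := by linarith
  obtain ⟨c1, c2⟩ := ps_rng hr hp.1.1
  obtain ⟨d1, d2⟩ := ps_rng hr hp.1.2
  refine ⟨hr, by linarith, by linarith, by linarith, c1, c2, d1, d2, ?_, ?_,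
    fun e1 e2 e3 e4 e5 => ?_⟩
  · rcases hp.2 with h | h | h | h <;> rw [h]
    · exact Or.inl (ps_zero _)
    · exact Or.inr (Or.inl (ps_top _))
    · exact Or.inr (Or.inr (Or.inl (ps_zero _)))
    · exact Or.inr (Or.inr (Or.inr (ps_top _)))
  · rcases hq.2 with h | h | h | h <;> rw [h]
    · exact Or.inl (by rw [ps_zero]; linarith)
    · exact Or.inr (Or.inl (by rw [ps_top]; linarith))
    · exact Or.inr (Or.inr (Or.inl (by rw [ps_zero]; linarith)))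
    · exact Or.inr (Or.inr (Or.inr (by rw [ps_top]; linarith)))
  · have f1 := ps_mid hr e2 e3
    have f2 := ps_mid h0 e4 e5
    have f3 : p.1 = 36 := by
      rcases hp.2 with h | h | h | h
      · rw [h, ps_zero] at e1; linarith
      · exact h
      · linarith [f1.1]
      · linarith [f1.2]
    refine hh ⟨f3, ?_, f1, f2⟩
    rcases hq.2 with h | h | h | h
    · rw [f3, ps_top, h, ps_zero] at e1; linarith
    · exact h
    · linarith [f2.1]
    · linarith [f2.2]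

theorem base0_ok {ρ μ : ℝ} {t : ℝ × ℝ} (h1 : 1 ≤ ρ) (h3 : ρ ≤ 3) (m1 : 3 / 4 ≤ μ) (m2 : μ ≤ 1)
    (ht : t ∈ bdFib) : NatOK (73 + ρ) (2 + μ * (t.2 - 2)) (2 + μ * (t.1 - 2)) := by
  obtain ⟨⟨⟨a1, a2⟩, b1, b2⟩, hb⟩ := ht
  refine ok_base0 (by linarith) (by linarith) (by nlinarith) (by nlinarith) (by nlinarith)
    (by nlinarith) ?_
  rcases hb with h | h | h | h <;> rw [h]
  · exact Or.inr (Or.inr (Or.inl (by linarith)))
  · exact Or.inr (Or.inr (Or.inr (by linarith)))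
  · exact Or.inl (by linarith)
  · exact Or.inr (Or.inl (by linarith))

end Vale.Agent.P215Z.EmbC
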