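import Vale.Agent.P215Z.Top.Emb.Nat
import Vale.Agent.P215Z.Top.Emb.Rng

/-!
# P215: the image of the blocks is in the chart
-/

noncomputable section

namespace Vale.Agent.P215Z.EmbC

open P215.H788 Set Emb

theorem um : UM uX uY uZ where
  mX := uX_mono
  mY := uY_mono
  mZ := uZ_mono
  x0 := uX_val.1
  x1 _ := uX_a
  x2 _ := uX_b
  x3 := uX_val.2.2.2.2.2.1
  x4 := uX_val.2.2.2.2.2.2.1
  x5 := uX_val.2.2.2.2.2.2.2.2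
  y0 := uY_val.1
  y1 := uY_val.2.1
  y2 := uY_val.2.2.1
  y3 _ := uY_b
  y4 := uY_val.2.2.2.2.2.1
  y5 := uY_val.2.2.2.2.2.2.1
  y6 := uY_val.2.2.2.2.2.2.2
  z0 := uZ_val.1
  z1 _ := uZ_a
  z2 := uZ_val.2.2.2.1
  z3 := uZ_val.2.2.2.2.1
  z4 _ := uZ_b
  z5 _ := uZ_c
  z6 := uZ_val.2.2.2.2.2.2.2.2.2

theorem torF' {x : E} (h : RH x) : TorF (tor x).1 (tor x).2.1 (tor x).2.2 (rad x) :=
  torF h.1 h.2.1 h.2.2.1 (sub_nonneg.2 h.2.2.2.1.1) (by linarith [h.2.2.2.1.2])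

theorem nb1_rng {x : E} (h : RB x) : (0 ≤ (nb1 x).1 ∧ (nb1 x).1 ≤ 36) ∧
    (0 ≤ (nb1 x).2.1 ∧ (nb1 x).2.1 ≤ 36) ∧ (1 ≤ (nb1 x).2.2 ∧ (nb1 x).2.2 ≤ 43) ∧
    ((nb1 x).1 < 3 / 2 ∨ 5 / 2 < (nb1 x).1 ∨ (nb1 x).2.1 < 3 / 2 ∨ 5 / 2 < (nb1 x).2.1) := by
  obtain ⟨a, b⟩ := mm_mem h
  obtain ⟨c, d⟩ := zz_mem h
  obtain ⟨e, f⟩ := h.2.2.2.1
  have ht := th_mem (dd_mem h.1 h.2.1).1
  have hm : 0 < mm x.2.2.1 (zz x) := by linarith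
  obtain ⟨p1, p2⟩ := sq1_mem hm ht.1.1
  obtain ⟨q1, q2⟩ := sq1_mem hm ht.1.2
  have k1 := le_max_left 0 (mm x.2.2.1 (zz x) - 1)
  have k2 : max 0 (mm x.2.2.1 (zz x) - 1) ≤ 1 := max_le zero_le_one (by linarith)
  simp only [nb1]
  refine ⟨⟨by linarith, by linarith⟩, ⟨by linarith, by linarith⟩, ⟨by linarith, by linarith⟩, ?_⟩
  rcases ht.2 with k | k | k | k <;> rw [k]
  · exact .inl (by rw [sq1_one]; linarith)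
  · exact .inr (.inl (by rw [sq1_three]; linarith))
  · exact .inr (.inr (.inl (by rw [sq1_one]; linarith)))
  · exact .inr (.inr (.inr (by rw [sq1_three]; linarith)))

theorem natOK (x : G0.Pts) :
    NatOK (nat x.1.1 x.1.2).1 (nat x.1.1 x.1.2).2.1 (nat x.1.1 x.1.2).2.2 := by
  rcases pts_cases x with ⟨e, h⟩ | ⟨e, h⟩ | ⟨e, h⟩ | ⟨e, h⟩ | ⟨e, h⟩ | ⟨e, h⟩ | ⟨e, h⟩ <;> rw [e]
  · obtain ⟨a, b⟩ := dd_mem h.1 h.2.1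
    exact base0_ok h.2.2.2.1.1 h.2.2.2.1.2 (show 3 / 4 ≤ 1 - dd x.1.2.1 / 4 by linarith)
      (show 1 - dd x.1.2.1 / 4 ≤ 1 by linarith) (th_mem a)
  · obtain ⟨a, b, c, d⟩ := nb1_rng h
    exact ok_base1 a.1 a.2 b.1 b.2 c.1 c.2 d
  · exact (torF' h).ok0
  · exact (torF' h).ok1
  · obtain ⟨⟨⟨a, b⟩, c, d⟩, -, ⟨e, f⟩, -⟩ := h
    exact ok_cap2 (X := -2 - x.1.2.1.1) (by linarith) (by linarith) e f c d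
  · obtain ⟨⟨⟨a, b⟩, c, d⟩, -, ⟨e, f⟩, -⟩ := h
    exact ok_cap0 (Z := 117 - x.1.2.1.1) e f c d (by linarith) (by linarith)
  · obtain ⟨⟨⟨a, b⟩, c, d⟩, -, ⟨e, f⟩, -⟩ := h
    exact ok_cap1 (Z := 119 + x.1.2.1.1) c d e f (by linarith) (by linarith)

theorem fib_mem (x : G0.Pts) : x.1.2.2.2 ∈ Fib := by
  rcases pts_cases x with ⟨-, h⟩ | ⟨-, h⟩ | ⟨-, h⟩ | ⟨-, h⟩ | ⟨-, h⟩ | ⟨-, h⟩ | ⟨-, h⟩
  exacts [h.2.2.2, h.2.2.2, h.2.2.2, h.2.2.2, h.2.2, h.2.2, h.2.2]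

end Vale.Agent.P215Z.EmbC

namespace Vale.Agent.P215Z.Emb

theorem mem (x : G0.Pts) : emb x ∈ OO :=
  EmbC.um.mem (EmbC.natOK x) (EmbC.fib_mem x).2.1 (EmbC.fib_mem x).2.2

end Vale.Agent.P215Z.Emb
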