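import Vale.Agent.P215Z.Top.Defs

/-!
# P215: the box and the caves in natural coordinates
-/

noncomputable section

namespace Vale.Agent.P215Z.EmbC

/-- the point is outside the closed box with the given ends -/
def Out (a b c d e f X Y Z : ℝ) : Prop := X < a ∨ b < X ∨ Y < c ∨ d < Y ∨ Z < e ∨ f < Z

/-- the point is in the big box and outside the caves, in natural coordinates -/
structure NatOK (X Y Z : ℝ) : Prop where
  bx : -41 < X ∧ X < 77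
  by' : -41 < Y ∧ Y < 77
  bz : -3 < Z ∧ Z < 158
  c1 : Out (-19 / 2) (-5 / 2) (-5) (1 / 2) (1 / 2) (7 / 2) X Y Z
  c2 : Out (-19 / 2) (-5 / 2) (7 / 2) 41 (1 / 2) (7 / 2) X Y Z
  c3 : Out (-19 / 2) 41 (-5) (-4) (3 / 2) (5 / 2) X Y Z
  c4 : Out (-19 / 2) 41 40 41 (3 / 2) (5 / 2) X Y Z
  c5 : Out 40 41 (-5) 41 (3 / 2) (5 / 2) X Y Z
  c6 : Out 40 77 (3 / 2) (5 / 2) (3 / 2) (5 / 2) X Y Z
  c7 : Out (1 / 2) (7 / 2) (-5) (1 / 2) (271 / 2) (285 / 2) X Y Z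
  c8 : Out (1 / 2) (7 / 2) (7 / 2) 41 (271 / 2) (285 / 2) X Y Z
  c9 : Out (3 / 2) (5 / 2) (-5) (-4) 60 (285 / 2) X Y Z
  c10 : Out (3 / 2) (5 / 2) 40 41 60 (285 / 2) X Y Z
  c11 : Out (3 / 2) (5 / 2) (-5) 41 60 61 X Y Z
  c12 : Out (3 / 2) (5 / 2) (3 / 2) (5 / 2) (-3) 61 X Y Z
  c13 : Out (-41) (1 / 2) (1 / 2) (7 / 2) (203 / 2) (217 / 2) X Y Z
  c14 : Out (7 / 2) 77 (1 / 2) (7 / 2) (203 / 2) (217 / 2) X Y Z

theorem out_of {a b c d e f X Y Z : ℝ}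
    (h : a ≤ X → X ≤ b → c ≤ Y → Y ≤ d → e ≤ Z → Z ≤ f → False) : Out a b c d e f X Y Z := by
  by_contra h1
  simp only [Out, not_or, not_lt] at h1
  exact h h1.1 h1.2.1 h1.2.2.1 h1.2.2.2.1 h1.2.2.2.2.1 h1.2.2.2.2.2

/-- what is needed about the coordinate maps -/
structure UM (uX uY uZ : ℝ → ℝ) : Prop where
  mX : StrictMono uX
  mY : StrictMono uY
  mZ : StrictMono uZ
  x0 : uX (-41) = 0
  x1 : ∀ x, -19 / 2 ≤ x → x ≤ -5 / 2 → uX x = x + 21 / 2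
  x2 : ∀ x, 1 / 2 ≤ x → x ≤ 7 / 2 → uX x = x + 17 / 2
  x3 : uX 40 = 13
  x4 : uX 41 = 14
  x5 : uX 77 = 16
  y0 : uY (-41) = 0
  y1 : uY (-5) = 1
  y2 : uY (-4) = 2
  y3 : ∀ y, 1 / 2 ≤ y → y ≤ 7 / 2 → uY y = y + 5 / 2
  y4 : uY 40 = 7
  y5 : uY 41 = 8
  y6 : uY 77 = 9
  z0 : uZ (-3) = 0
  z1 : ∀ z, 1 / 2 ≤ z → z ≤ 7 / 2 → uZ z = z + 1 / 2
  z2 : uZ 60 = 5
  z3 : uZ 61 = 6
  z4 : ∀ z, 203 / 2 ≤ z → z ≤ 217 / 2 → uZ z = z - 189 / 2
  z5 : ∀ z, 271 / 2 ≤ z → z ≤ 285 / 2 → uZ z = z - 241 / 2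
  z6 : uZ 158 = 23

variable {uX uY uZ : ℝ → ℝ} {X Y Z T : ℝ}

theorem UM.out (u : UM uX uY uZ) {a b c d e f : ℝ} (h : Out a b c d e f X Y Z) {p q : Pt}
    (h1 : uX a = p 0) (h2 : uX b = q 0) (h3 : uY c = p 1) (h4 : uY d = q 1) (h5 : uZ e = p 2)
    (h6 : uZ f = q 2) : ∃ j : Fin 4, j ≠ 3 ∧ (![uX X, uY Y, uZ Z, T] j < (p j : ℝ) ∨
      (q j : ℝ) < ![uX X, uY Y, uZ Z, T] j) := by
  rcases h with h | h | h | h | h | h
  · exact ⟨0, by decide, Or.inl (h1 ▸ u.mX h)⟩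
  · exact ⟨0, by decide, Or.inr (h2 ▸ u.mX h)⟩
  · exact ⟨1, by decide, Or.inl (h3 ▸ u.mY h)⟩
  · exact ⟨1, by decide, Or.inr (h4 ▸ u.mY h)⟩
  · exact ⟨2, by decide, Or.inl (h5 ▸ u.mZ h)⟩
  · exact ⟨2, by decide, Or.inr (h6 ▸ u.mZ h)⟩

theorem UM.o3 (u : UM uX uY uZ) (h : NatOK X Y Z) : O3 ![uX X, uY Y, uZ Z, T] := by
  have a1 : uX (-19 / 2) = 1 := by rw [u.x1] <;> norm_num
  have a8 : uX (-5 / 2) = 8 := by rw [u.x1] <;> norm_num
  have a9 : uX (1 / 2) = 9 := by rw [u.x2] <;> norm_num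
  have a10 : uX (3 / 2) = 10 := by rw [u.x2] <;> norm_num
  have a11 : uX (5 / 2) = 11 := by rw [u.x2] <;> norm_num
  have a12 : uX (7 / 2) = 12 := by rw [u.x2] <;> norm_num
  have b3 : uY (1 / 2) = 3 := by rw [u.y3] <;> norm_num
  have b4 : uY (3 / 2) = 4 := by rw [u.y3] <;> norm_num
  have b5 : uY (5 / 2) = 5 := by rw [u.y3] <;> norm_num
  have b6 : uY (7 / 2) = 6 := by rw [u.y3] <;> norm_num
  have c1 : uZ (1 / 2) = 1 := by rw [u.z1] <;> norm_num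
  have c2 : uZ (3 / 2) = 2 := by rw [u.z1] <;> norm_num
  have c3 : uZ (5 / 2) = 3 := by rw [u.z1] <;> norm_num
  have c4 : uZ (7 / 2) = 4 := by rw [u.z1] <;> norm_num
  have c7 : uZ (203 / 2) = 7 := by rw [u.z4] <;> norm_num
  have c14 : uZ (217 / 2) = 14 := by rw [u.z4] <;> norm_num
  have c15 : uZ (271 / 2) = 15 := by rw [u.z5] <;> norm_num
  have c22 : uZ (285 / 2) = 22 := by rw [u.z5] <;> norm_num
  have a0 := u.x0
  have a13 := u.x3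
  have a14 := u.x4
  have a16 := u.x5
  have b1 := u.y1
  have b2 := u.y2
  have b7 := u.y4
  have b8 := u.y5
  have c0 := u.z0
  have c5 := u.z2
  have c6 := u.z3
  refine ⟨fun j hj => ?_, fun c hc => ?_⟩
  · fin_cases j
    · exact ⟨u.x0 ▸ u.mX h.bx.1, (u.mX h.bx.2).trans_eq (by simp [u.x5, boxHi])⟩
    · exact ⟨u.y0 ▸ u.mY h.by'.1, (u.mY h.by'.2).trans_eq (by simp [u.y6, boxHi])⟩
    · exact ⟨u.z0 ▸ u.mZ h.bz.1, (u.mZ h.bz.2).trans_eq (by simp [u.z6, boxHi])⟩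
    · exact absurd rfl hj
  · simp only [caves, List.mem_cons, List.not_mem_nil, or_false] at hc
    rcases hc with rfl | rfl | rfl | rfl | rfl | rfl | rfl | rfl | rfl | rfl | rfl | rfl | rfl | rfl
    · exact u.out h.c1 (a1.trans (by simp)) (a8.trans (by simp)) (b1.trans (by simp))
        (b3.trans (by simp)) (c1.trans (by simp)) (c4.trans (by simp))
    · exact u.out h.c2 (a1.trans (by simp)) (a8.trans (by simp)) (b6.trans (by simp))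
        (b8.trans (by simp)) (c1.trans (by simp)) (c4.trans (by simp))
    · exact u.out h.c3 (a1.trans (by simp)) (a14.trans (by simp)) (b1.trans (by simp))
        (b2.trans (by simp)) (c2.trans (by simp)) (c3.trans (by simp))
    · exact u.out h.c4 (a1.trans (by simp)) (a14.trans (by simp)) (b7.trans (by simp))
        (b8.trans (by simp)) (c2.trans (by simp)) (c3.trans (by simp))
    · exact u.out h.c5 (a13.trans (by simp)) (a14.trans (by simp)) (b1.trans (by simp))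
        (b8.trans (by simp)) (c2.trans (by simp)) (c3.trans (by simp))
    · exact u.out h.c6 (a13.trans (by simp)) (a16.trans (by simp)) (b4.trans (by simp))
        (b5.trans (by simp)) (c2.trans (by simp)) (c3.trans (by simp))
    · exact u.out h.c7 (a9.trans (by simp)) (a12.trans (by simp)) (b1.trans (by simp))
        (b3.trans (by simp)) (c15.trans (by simp)) (c22.trans (by simp))
    · exact u.out h.c8 (a9.trans (by simp)) (a12.trans (by simp)) (b6.trans (by simp))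
        (b8.trans (by simp)) (c15.trans (by simp)) (c22.trans (by simp))
    · exact u.out h.c9 (a10.trans (by simp)) (a11.trans (by simp)) (b1.trans (by simp))
        (b2.trans (by simp)) (c5.trans (by simp)) (c22.trans (by simp))
    · exact u.out h.c10 (a10.trans (by simp)) (a11.trans (by simp)) (b7.trans (by simp))
        (b8.trans (by simp)) (c5.trans (by simp)) (c22.trans (by simp))
    · exact u.out h.c11 (a10.trans (by simp)) (a11.trans (by simp)) (b1.trans (by simp))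
        (b8.trans (by simp)) (c5.trans (by simp)) (c6.trans (by simp))
    · exact u.out h.c12 (a10.trans (by simp)) (a11.trans (by simp)) (b4.trans (by simp))
        (b5.trans (by simp)) (c0.trans (by simp)) (c6.trans (by simp))
    · exact u.out h.c13 (a0.trans (by simp)) (a9.trans (by simp)) (b3.trans (by simp))
        (b6.trans (by simp)) (c7.trans (by simp)) (c14.trans (by simp))
    · exact u.out h.c14 (a12.trans (by simp)) (a16.trans (by simp)) (b3.trans (by simp))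
        (b6.trans (by simp)) (c7.trans (by simp)) (c14.trans (by simp))

theorem UM.mem (u : UM uX uY uZ) (h : NatOK X Y Z) (h1 : 1 ≤ T) (h3 : T ≤ 3) :
    ![uX X, uY Y, uZ Z, T - 1 / 2] ∈ OO :=
  ⟨u.o3 h, show 0 < T - 1 / 2 by linarith, show T - 1 / 2 < 3 by linarith⟩

/-- the facts about a point of a thick torus -/
structure TorF (X Y h r : ℝ) : Prop where
  r0 : 0 ≤ r
  r1 : r ≤ 40
  h0 : -2 ≤ h
  h1 : h ≤ 38
  x0 : -r ≤ X
  x1 : X ≤ 36 + r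
  y0 : -r ≤ Y
  y1 : Y ≤ 36 + r
  bd : X = -r ∨ X = 36 + r ∨ Y = -r ∨ Y = 36 + r
  tube : r ≤ 2 ∨ 38 ≤ r ∨ h ≤ 0 ∨ 36 ≤ h
  hole : 40 ≤ X → 1 < Y → Y < 3 → 1 < h → h < 3 → False

theorem TorF.ok0 {h r : ℝ} (t : TorF X Y h r) : NatOK X Y h := by
  obtain ⟨r0, r1, h0, h1, x0, x1, y0, y1, bd, tube, hole⟩ := t
  refine ⟨⟨by linarith, by linarith⟩, ⟨by linarith, by linarith⟩, ⟨by linarith, by linarith⟩,
    ?_, ?_, ?_, ?_, ?_, out_of fun _ _ _ _ _ _ => hole (by linarith) (by linarith) (by linarith)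
      (by linarith) (by linarith), ?_, ?_, ?_, ?_, ?_, ?_, ?_, ?_⟩ <;>
  refine out_of fun _ _ _ _ _ _ => ?_ <;>
  rcases bd with bd | bd | bd | bd <;> rcases tube with t | t | t | t <;> linarith

theorem TorF.ok1 {h r : ℝ} (t : TorF X Y h r) : NatOK h Y (117 - X) := by
  obtain ⟨r0, r1, h0, h1, x0, x1, y0, y1, bd, tube, hole⟩ := t
  refine ⟨⟨by linarith, by linarith⟩, ⟨by linarith, by linarith⟩, ⟨by linarith, by linarith⟩,
    ?_, ?_, ?_, ?_, ?_, ?_, ?_, ?_, ?_, ?_, ?_,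
    out_of fun _ _ _ _ _ _ => hole (by linarith) (by linarith) (by linarith)
      (by linarith) (by linarith), ?_, ?_⟩ <;>
  refine out_of fun _ _ _ _ _ _ => ?_ <;>
  rcases bd with bd | bd | bd | bd <;> rcases tube with t | t | t | t <;> linarith

theorem ok_cap2 (h1 : -38 ≤ X) (h2 : X ≤ -2) (h3 : 1 ≤ Y) (h4 : Y ≤ 3) (h5 : 0 ≤ Z)
    (h6 : Z ≤ 36) : NatOK X Y Z := by
  refine ⟨⟨by linarith, by linarith⟩, ⟨by linarith, by linarith⟩, ⟨by linarith, by linarith⟩,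
    ?_, ?_, ?_, ?_, ?_, ?_, ?_, ?_, ?_, ?_, ?_, ?_, ?_, ?_⟩ <;>
  exact out_of fun _ _ _ _ _ _ => by linarith

theorem ok_cap0 (h1 : 1 ≤ X) (h2 : X ≤ 3) (h3 : 0 ≤ Y) (h4 : Y ≤ 36) (h5 : 81 ≤ Z)
    (h6 : Z ≤ 117) : NatOK X Y Z := by
  refine ⟨⟨by linarith, by linarith⟩, ⟨by linarith, by linarith⟩, ⟨by linarith, by linarith⟩,
    ?_, ?_, ?_, ?_, ?_, ?_, ?_, ?_, ?_, ?_, ?_, ?_, ?_, ?_⟩ <;>
  exact out_of fun _ _ _ _ _ _ => by linarith

theorem ok_cap1 (h1 : 0 ≤ X) (h2 : X ≤ 36) (h3 : 1 ≤ Y) (h4 : Y ≤ 3) (h5 : 119 ≤ Z)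
    (h6 : Z ≤ 155) : NatOK X Y Z := by
  refine ⟨⟨by linarith, by linarith⟩, ⟨by linarith, by linarith⟩, ⟨by linarith, by linarith⟩,
    ?_, ?_, ?_, ?_, ?_, ?_, ?_, ?_, ?_, ?_, ?_, ?_, ?_, ?_⟩ <;>
  exact out_of fun _ _ _ _ _ _ => by linarith

theorem ok_base0 (h1 : 74 ≤ X) (h2 : X ≤ 76) (h3 : 1 ≤ Y) (h4 : Y ≤ 3) (h5 : 1 ≤ Z)
    (h6 : Z ≤ 3) (h7 : Y < 3 / 2 ∨ 5 / 2 < Y ∨ Z < 3 / 2 ∨ 5 / 2 < Z) : NatOK X Y Z := by
  refine ⟨⟨by linarith, by linarith⟩, ⟨by linarith, by linarith⟩, ⟨by linarith, by linarith⟩,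
    ?_, ?_, ?_, ?_, ?_, Or.inr (Or.inr h7), ?_, ?_, ?_, ?_, ?_, ?_, ?_, ?_⟩ <;>
  exact out_of fun _ _ _ _ _ _ => by linarith

theorem ok_base1 (h1 : 0 ≤ X) (h2 : X ≤ 36) (h3 : 0 ≤ Y) (h4 : Y ≤ 36) (h5 : 1 ≤ Z)
    (h6 : Z ≤ 43) (h7 : X < 3 / 2 ∨ 5 / 2 < X ∨ Y < 3 / 2 ∨ 5 / 2 < Y) : NatOK X Y Z := by
  refine ⟨⟨by linarith, by linarith⟩, ⟨by linarith, by linarith⟩, ⟨by linarith, by linarith⟩,
    ?_, ?_, ?_, ?_, ?_, ?_, ?_, ?_, ?_, ?_, ?_, out_of fun _ _ _ _ _ _ => by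
      rcases h7 with h | h | h | h <;> linarith, ?_, ?_⟩ <;>
  exact out_of fun _ _ _ _ _ _ => by linarith

end Vale.Agent.P215Z.EmbC
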