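import Vale.Agent.P215Z.Top.Emb.Nat

/-!
# P215: continuity of the embedding, and the gluings
-/

noncomputable section

namespace Vale.Agent.P215Z.Emb

open P215.H788 Set

theorem cont_psi : Continuous fun p : R2 => psi p.1 p.2 := by
  unfold psi
  fun_prop

theorem cont_tor : Continuous tor := by
  unfold tor rad hgt psi
  fun_prop

theorem cont_dd : Continuous dd := by
  unfold dd
  fun_prop

theorem cont_th {x : R2} (h : 0 ≤ dd x) : ContinuousAt th x := by
  have h1 : 1 + 17 * dd x ≠ 0 := by positivity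
  have h2 := cont_dd
  unfold th th1
  fun_prop (disch := exact h1)

theorem cont_nb0 {x : E} (h : 0 ≤ dd x.1) : ContinuousAt nb0 x := by
  have h1 : ContinuousAt (fun y : E => th y.1) x := (cont_th h).comp continuousAt_fst
  have h2 : Continuous fun p : E × ℝ × R2 => ((73 + p.1.2.2.1,
      2 + (1 - p.2.1 / 4) * (p.2.2.2 - 2), 2 + (1 - p.2.1 / 4) * (p.2.2.1 - 2)) : R3) := by
    fun_prop
  exact h2.continuousAt.comp (f := fun y : E => (y, dd y.1, th y.1))
    (continuousAt_id.prodMk ((cont_dd.comp continuous_fst).continuousAt.prodMk h1))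

theorem cont_nb1 {x : E} (h : 0 ≤ dd x.1) : ContinuousAt nb1 x := by
  have h1 : ContinuousAt (fun y : E => th y.1) x := (cont_th h).comp continuousAt_fst
  have h3 : Continuous zz := by
    unfold zz dd
    fun_prop
  have h2 : Continuous fun p : E × ℝ × R2 =>
      ((sq1 (mm p.1.2.2.1 p.2.1) p.2.2.1, sq1 (mm p.1.2.2.1 p.2.1) p.2.2.2, p.2.1) : R3) := by
    unfold sq1 mm
    fun_prop
  exact h2.continuousAt.comp (f := fun y : E => (y, zz y, th y.1))
    (continuousAt_id.prodMk (h3.continuousAt.prodMk h1))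

theorem cont_nat (x : G0.Pts) : ContinuousAt (nat x.1.1) x.1.2 := by
  have h0 := cont_tor
  rcases pts_cases x with ⟨h, k⟩ | ⟨h, k⟩ | ⟨h, k⟩ | ⟨h, k⟩ | ⟨h, k⟩ | ⟨h, k⟩ | ⟨h, k⟩ <;> rw [h]
  · exact cont_nb0 (dd_mem k.1 k.2.1).1
  · exact cont_nb1 (dd_mem k.1 k.2.1).1
  · exact h0.continuousAt
  · exact ((show Continuous sw by unfold sw; fun_prop).comp h0).continuousAt
  · change ContinuousAt (fun x : E => (-2 - x.1.1, x.2.2.1, x.1.2)) _
    fun_prop
  · change ContinuousAt (fun x : E => (x.2.2.1, x.1.2, 117 - x.1.1)) _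
    fun_prop
  · change ContinuousAt (fun x : E => (x.1.2, x.2.2.1, 119 + x.1.1)) _
    fun_prop

theorem jn_cont {c : ℝ} {f g : ℝ → ℝ} (hf : Continuous f) (hg : Continuous g) :
    Continuous (jn c f g) := by
  unfold jn
  fun_prop

theorem af_cont (a b k l : ℝ) : Continuous (af a b k l) := by
  unfold af
  fun_prop

theorem cont_uni : Continuous fun p : R3 × ℝ => uni p.1 p.2 := by
  have h1 : Continuous uX := by
    unfold uX
    repeat' first | apply jn_cont | exact af_cont _ _ _ _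
  have h2 : Continuous uY := by
    unfold uY
    repeat' first | apply jn_cont | exact af_cont _ _ _ _
  have h3 : Continuous uZ := by
    unfold uZ
    repeat' first | apply jn_cont | exact af_cont _ _ _ _
  unfold uni
  fun_prop

theorem cont : Continuous emb := by
  refine continuous_iff_continuousAt.2 fun x => ?_
  have h0 : Continuous fun y : G0.Pts => y.1 := continuous_subtype_val
  have h1 : ContinuousAt (fun y : G0.Pts => nat x.1.1 y.1.2) x :=
    (cont_nat x).comp (f := fun y : G0.Pts => y.1.2) h0.snd.continuousAt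
  have h2 : ContinuousAt (fun y : G0.Pts => uni (nat x.1.1 y.1.2) y.1.2.2.2.2) x :=
    cont_uni.continuousAt.comp (f := fun y : G0.Pts => (nat x.1.1 y.1.2, y.1.2.2.2.2))
      (h1.prodMk h0.snd.snd.snd.snd.continuousAt)
  refine h2.congr ?_
  filter_upwards [h0.fst.continuousAt.preimage_mem_nhds
    ((isOpen_discrete {x.1.1}).mem_nhds rfl)] with y hy
  rw [emb, show y.1.1 = x.1.1 from hy]

theorem fib (x : G0.Pts) : x.1.2.2.2 ∈ Fib := by
  rcases pts_cases x with ⟨-, k⟩ | ⟨-, k⟩ | ⟨-, k⟩ | ⟨-, k⟩ | ⟨-, k⟩ | ⟨-, k⟩ | ⟨-, k⟩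
  exacts [k.2.2.2, k.2.2.2, k.2.2.2, k.2.2.2, k.2.2, k.2.2, k.2.2]

theorem low (x : G0.Pts) : 1 / 2 ≤ emb x 3 := by
  rw [emb_3]
  linarith [(fib x).2.1]

theorem att (z : Circ) (v : Disc) (h : v.1.1 = 0) :
    emb ⟨(.base 0, G0.attachE z.1 v.1), G0.attachE_mem z v⟩ =
      ![15, 9 / 2 + 3 / 4 * z.1.2, 5 / 2 + 3 / 4 * z.1.1, 3 / 2 + v.1.2] := by
  obtain ⟨⟨z1, z2⟩, hz⟩ := z
  simp only [mem_sphere_zero_iff_norm, Prod.norm_mk, Real.norm_eq_abs] at hz
  have h1 : |z1| ≤ 1 := hz ▸ le_max_left _ _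
  have h2 : |z2| ≤ 1 := hz ▸ le_max_right _ _
  rw [abs_le] at h1 h2
  have h3 : dd (36 / 2 * (z1 + 1), 36 / 2 * (z2 + 1)) = 1 := by
    refine dd_bd ⟨⟨⟨by linarith, by linarith⟩, by linarith, by linarith⟩, ?_⟩
    rcases max_choice |z1| |z2| with k | k <;> rw [hz] at k <;>
      rcases (abs_eq zero_le_one).1 k.symm with k | k <;> norm_num [k]
  simp only [emb, uni, nat, nb0, mu, th, CappedGrope.attachE, L_eq, h, h3, th1_one]
  rw [uY_b (by linarith) (by linarith), uZ_a (by linarith) (by linarith),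
    show (73 : ℝ) + (0 + 2) = 75 by norm_num, uX_val.2.2.2.2.2.2.2.1]
  congr 1
  refine congrArg₂ _ (by ring) (congrArg₂ _ (by ring) (congrArg₂ _ (by ring) rfl))

theorem tor_hole {a : R2} (v : R2) (ha : a ∈ Fib) :
    tor ((36, a.2), (36, a.1), v) = (73 + v.1, a.2, a.1) := by
  obtain ⟨⟨a1, a2⟩, a3, a4⟩ := ha
  simp only [tor, rad, hgt, psi_top, psi_mid _ a1 (by linarith), psi_mid _ a3 (by linarith)]
  congr 1
  ring

theorem tor_fst (z : R2) {v : R2} (hv : v ∈ Fib) :
    tor (z, (0, v.1), (3, v.2)) = (z.1, z.2, v.1) := by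
  obtain ⟨⟨a1, a2⟩, -⟩ := hv
  norm_num [tor, rad, hgt, psi_zero, psi_nil, psi_mid _ a1 (by linarith)]

theorem tor_snd (z : R2) {v : R2} (hv : v ∈ Fib) :
    tor ((0, v.1), z, (1, v.2)) = (-2 - z.1, v.1, z.2) := by
  obtain ⟨⟨a1, a2⟩, -⟩ := hv
  simp only [tor, rad, hgt, psi_zero, psi_nil, psi_mid _ a1 (by linarith), sub_self]
  congr 1
  ring

theorem plumb {k : ℕ} {c c' : Tip} {s : Bool} (h : G0.plumbings[k]? = some (c, c', s)) :
    (k = 0 ∧ c = (0, 0, true) ∧ c' = (0, 0, true) ∧ s = false) ∨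
      (k = 1 ∧ c = (1, 0, false) ∧ c' = (1, 0, false) ∧ s = false) ∨
      (k = 2 ∧ c = (1, 0, true) ∧ c' = (1, 0, true) ∧ s = true) := by
  rcases k with _ | _ | _ | k <;> simp [G0] at h ⊢ <;> simp [← h.1, ← h.2.1, ← h.2.2]

theorem glue (x y : G0.Pts) (h : G0.Glue x.1 y.1) :
    emb x = emb y ∨ ∃ i, emb x ∈ Qo (i, true) ∧ emb y = thR i (emb x) := by
  obtain ⟨x, hx⟩ := x
  obtain ⟨y, hy⟩ := y
  cases h with
  | hole s j a v ha =>
    obtain ⟨rfl, rfl | rfl⟩ := genus_pos hy.1
    · left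
      simp only [emb, nat, L_eq, tor_hole v ha.1, Nat.cast_zero, mul_zero, zero_add]
      rw [nb0_fib (dd_fib ha)]
    · left
      simp only [emb, nat, L_eq, tor_hole v ha.1, Nat.cast_zero, mul_zero, zero_add, sw]
      rw [nb1_fib (x := ((a.1, a.2), 0, v)) (dd_fib ha) hy.2.2]
      congr 3
      ring
  | fst s j z v hz hv =>
    obtain ⟨rfl, rfl | rfl⟩ := genus_pos hy.1
    · left
      change uni (nb1 _) _ = uni (tor _) _
      rw [nb1_bd (dd_bd (L_eq ▸ hz)) hv, tor_fst z hv]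
    · left
      change uni (v.1, z.2, 117 - z.1) _ = uni (sw (tor _)) _
      rw [tor_fst z hv]
      rfl
  | snd s j z v hz hv =>
    obtain ⟨rfl, rfl | rfl⟩ := genus_pos hy.1
    · left
      change uni (-2 - z.1, v.1, z.2) _ = uni (tor _) _
      rw [tor_snd z hv]
    · left
      change uni (z.2, v.1, 119 + z.1) _ = uni (sw (tor _)) _
      rw [tor_snd z hv, sw]
      congr 3
      ring
  | pos k c c' h u v hu hv =>
    obtain ⟨⟨u1, u2⟩, u3, u4⟩ := hu
    obtain ⟨⟨v1, v2⟩, v3, v4⟩ := hv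
    rcases plumb h with ⟨-, -, -, h⟩ | ⟨-, -, -, h⟩ | ⟨rfl, rfl, rfl, -⟩
    · cases h
    · cases h
    refine .inr ⟨1, ?_⟩
    simp only [emb, nat, uni, Nat.cast_ofNat]
    rw [uX_b (by linarith) (by linarith), uX_b (by linarith) (by linarith),
      uY_b (by linarith) (by linarith), uY_b (by linarith) (by linarith),
      uZ_c (by linarith) (by linarith), uZ_c (by linarith) (by linarith)]
    refine ⟨fun j => ?_, funext fun j => ?_⟩ <;> fin_cases j <;>
      simp [org, thR, ppi, Equiv.swap_apply_def] <;> first | ring1 | (constructor <;> linarith)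
  | neg k c c' h u v hu hv =>
    obtain ⟨⟨u1, u2⟩, u3, u4⟩ := hu
    obtain ⟨⟨v1, v2⟩, v3, v4⟩ := hv
    rcases plumb h with ⟨rfl, rfl, rfl, -⟩ | ⟨rfl, rfl, rfl, -⟩ | ⟨-, -, -, h⟩
    · refine .inr ⟨2, ?_⟩
      simp only [emb, nat, uni, Nat.cast_zero, P215.H788.refl]
      rw [uX_a (by linarith) (by linarith), uX_a (by linarith) (by linarith),
        uY_b (by linarith) (by linarith), uY_b (by linarith) (by linarith),
        uZ_a (by linarith) (by linarith), uZ_a (by linarith) (by linarith)]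
      refine ⟨fun j => ?_, funext fun j => ?_⟩ <;> fin_cases j <;>
        simp [org, thR, ppi, Equiv.swap_apply_def] <;> first | ring1 | (constructor <;> linarith)
    · refine .inr ⟨0, ?_⟩
      simp only [emb, nat, uni, Nat.cast_one, P215.H788.refl]
      rw [uX_b (by linarith) (by linarith), uX_b (by linarith) (by linarith),
        uY_b (by linarith) (by linarith), uY_b (by linarith) (by linarith),
        uZ_b (by linarith) (by linarith), uZ_b (by linarith) (by linarith)]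
      refine ⟨fun j => ?_, funext fun j => ?_⟩ <;> fin_cases j <;>
        simp [org, thR, ppi, Equiv.swap_apply_def] <;> first | ring1 | (constructor <;> linarith)
    · cases h

end Vale.Agent.P215Z.Emb
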