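import Vale.Agent.P215Z.Top.Emb.Nat

/-!
# P215: the embedding is injective modulo the gluings
-/

noncomputable section

namespace Vale.Agent.P215Z.Emb

open P215.H788 Set

namespace Inj

variable {x y : E} {X Y Z : ℝ}

theorem s0 (h : RH x) : 0 ≤ x.2.2.1 - 1 := sub_nonneg.2 h.2.2.2.1.1

theorem tor_range (h : RH x) : -40 ≤ (tor x).1 ∧ (tor x).1 ≤ 76 ∧ -2 ≤ (tor x).2.2 ∧
    (tor x).2.2 ≤ 38 := by
  obtain ⟨a, b, c, d⟩ := rad_mem h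
  obtain ⟨e, f⟩ := psi_mem a h.1.1.1
  exact ⟨by change _ ≤ psi _ _; linarith, by change psi _ _ ≤ _; linarith, c, d⟩

theorem midY (h : RH x) (e : tor x = (X, Y, Z)) (y0 : 1 ≤ Y) (y1 : Y ≤ 3) : x.1.2 = Y :=
  psi_eq (rad_mem h).1 y0 (by linarith) (congrArg (fun t : R3 => t.2.1) e)

theorem midZ (h : RH x) (e : tor x = (X, Y, Z)) (z0 : 1 ≤ Z) (z1 : Z ≤ 3) : x.2.1.2 = Z :=
  psi_eq (s0 h) z0 (by linarith) (congrArg (fun t : R3 => t.2.2) e)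

theorem wall (h : RH x) (e : tor x = (X, Y, Z)) (hX : 74 ≤ X) (y0 : 0 ≤ Y) (y1 : Y ≤ 36)
    (z0 : 0 ≤ Z) (z1 : Z ≤ 36) : X = 73 + x.2.2.1 ∧ x.1.1 = 36 ∧ x.2.1.1 = 36 ∧
      ¬ (Y ∈ Ioo (1 : ℝ) 3 ∧ Z ∈ Ioo (1 : ℝ) 3) := by
  have r0 := (rad_mem h).1
  obtain ⟨⟨a1, a2⟩, ⟨a3, a4⟩, a5⟩ := sig_bd r0 h.1
  obtain ⟨⟨b1, b2⟩, ⟨b3, b4⟩, b5⟩ := sig_bd (s0 h) h.2.1
  have l := s0 h
  have e' := e
  simp only [tor, Prod.mk.injEq, hgt] at e'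
  obtain ⟨eX, eY, eZ⟩ := e'
  have er : rad x = 2 + psi (x.2.2.1 - 1) x.2.1.1 := rfl
  have e1 : X = 36 + rad x := by rcases a5 with a | a | a | a <;> linarith [a.2]
  have e2 : psi (x.2.2.1 - 1) x.2.1.1 = 36 + (x.2.2.1 - 1) := by
    rcases b5 with a | a | a | a <;> linarith [a.2]
  have e3 : x.1.1 = 36 := (psi_mono r0).injective (by rw [eX, psi_top, e1])
  have e4 : x.2.1.1 = 36 := (psi_mono l).injective (by rw [psi_top, e2])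
  refine ⟨by linarith, e3, e4, fun k => h.2.2.1 ⟨e3, e4, ?_, ?_⟩⟩
  · rw [midY h e k.1.1.le k.1.2.le]
    exact k.1
  · rw [midZ h e k.2.1.le k.2.2.le]
    exact k.2

theorem inner (h : RH x) (e : tor x = (X, Y, Z)) (x0 : 0 ≤ X) (x1 : X ≤ 36) (y0 : 0 ≤ Y)
    (y1 : Y ≤ 36) : x.1 = (X, Y) ∧ x.2.1.1 = 0 ∧ x.2.2.1 = 3 := by
  have r0 := (rad_mem h).1
  obtain ⟨-, -, a5⟩ := sig_bd r0 h.1
  have b1 := (sig_bd (s0 h) h.2.1).1.1
  have l := h.2.2.2.1.2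
  simp only [tor, Prod.mk.injEq, hgt] at e
  obtain ⟨eX, eY, -⟩ := e
  have er : rad x = 2 + psi (x.2.2.1 - 1) x.2.1.1 := rfl
  have e1 : rad x = 0 := by rcases a5 with a | a | a | a <;> linarith [a.2]
  rw [e1, psi_nil] at eX eY
  refine ⟨Prod.ext eX eY, (psi_mono (s0 h)).injective ?_, by linarith⟩
  rw [psi_zero]
  linarith

theorem left (h : RH x) (e : tor x = (X, Y, Z)) (x0 : -38 ≤ X) (x1 : X ≤ -2) (y0 : 1 ≤ Y)
    (y1 : Y ≤ 3) (z0 : 0 ≤ Z) (z1 : Z ≤ 36) :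
    x.1 = (0, Y) ∧ x.2.1 = (-2 - X, Z) ∧ x.2.2.1 = 1 := by
  have r0 := (rad_mem h).1
  obtain ⟨⟨a1, -⟩, -, a5⟩ := sig_bd r0 h.1
  obtain ⟨-, -, b5⟩ := sig_bd (s0 h) h.2.1
  have l := s0 h
  have e' := e
  simp only [tor, Prod.mk.injEq, hgt] at e'
  obtain ⟨eX, eY, eZ⟩ := e'
  have er : rad x = 2 + psi (x.2.2.1 - 1) x.2.1.1 := rfl
  have e1 : X = -rad x := by rcases a5 with a | a | a | a <;> linarith [a.2]
  have e2 : x.2.2.1 - 1 = 0 := by rcases b5 with a | a | a | a <;> linarith [a.2]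
  have e3 : x.1.1 = 0 := (psi_mono r0).injective (by rw [eX, psi_zero, e1])
  rw [e2, psi_nil] at er eZ
  exact ⟨Prod.ext e3 (midY h e y0 y1), Prod.ext (by linarith) eZ, by linarith⟩

theorem mu_range (h : RB x) : 3 / 4 ≤ mu x.1 ∧ mu x.1 ≤ 1 := by
  obtain ⟨a, b⟩ := dd_mem h.1 h.2.1
  unfold mu
  constructor <;> linarith

theorem nb0_eq (h : RB x) :
    nb0 x = (73 + x.2.2.1, sq1 (mu x.1) (th x.1).2, sq1 (mu x.1) (th x.1).1) := by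
  rw [sq1_le (mu_range h).2, sq1_le (mu_range h).2]
  rfl

theorem small {m t : ℝ} (h0 : 0 < m) (h1 : m ≤ 1) (ht : t ∈ Icc (1 : ℝ) 3) :
    2 - m ≤ sq1 m t ∧ sq1 m t ≤ 2 + m := by
  have := sq1_mem h0 ht
  rw [max_eq_left (by linarith), mul_zero, add_zero] at this
  exact this

theorem nb0_range (h : RB x) : 74 ≤ (nb0 x).1 ∧ 1 ≤ (nb0 x).2.1 ∧ (nb0 x).2.1 ≤ 3 ∧
    1 ≤ (nb0 x).2.2 ∧ (nb0 x).2.2 ≤ 3 ∧
    (¬ ((nb0 x).2.1 ∈ Ioo (1 : ℝ) 3 ∧ (nb0 x).2.2 ∈ Ioo (1 : ℝ) 3) → dd x.1 = 0) := by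
  obtain ⟨a, b⟩ := mu_range h
  obtain ⟨d0, -⟩ := dd_mem h.1 h.2.1
  have ht := (th_mem d0).1
  obtain ⟨c1, c2⟩ := small (by linarith) b ht.1
  obtain ⟨c3, c4⟩ := small (by linarith) b ht.2
  have l := h.2.2.2.1.1
  rw [nb0_eq h]
  refine ⟨by simp only; linarith, by simp only; linarith, by simp only; linarith,
    by simp only; linarith, by simp only; linarith, fun k => ?_⟩
  by_contra hn
  have : mu x.1 < 1 := by
    have := lt_of_le_of_ne d0 (Ne.symm hn)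
    unfold mu
    linarith
  exact k ⟨⟨by simp only; linarith, by simp only; linarith⟩, by simp only; linarith,
    by simp only; linarith⟩

theorem nb0_inj (hx : RB x) (hy : RB y) (e : nb0 x = nb0 y) : x.1 = y.1 ∧ x.2.2.1 = y.2.2.1 := by
  rw [nb0_eq hx, nb0_eq hy] at e
  simp only [Prod.mk.injEq] at e
  have d0 := (dd_mem hx.1 hx.2.1).1
  obtain ⟨a, b⟩ := sq1_inj (by linarith [(mu_range hx).1]) (by linarith [(mu_range hy).1])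
    (th_mem d0) (th_mem (dd_mem hy.1 hy.2.1).1) e.2.2 e.2.1
  refine ⟨th_inj d0 ?_ b, by linarith [e.1]⟩
  unfold mu at a
  linarith

theorem nb1_range (h : RB x) : 0 ≤ (nb1 x).1 ∧ (nb1 x).1 ≤ 36 ∧ 0 ≤ (nb1 x).2.1 ∧
    (nb1 x).2.1 ≤ 36 ∧ 1 ≤ (nb1 x).2.2 ∧ (nb1 x).2.2 ≤ 43 ∧
    (((nb1 x).1, (nb1 x).2.1) ∈ bdSq 36 → dd x.1 = 1) ∧
    (41 ≤ (nb1 x).2.2 → ¬ ((nb1 x).2.1 ∈ Ioo (1 : ℝ) 3 ∧ (nb1 x).1 ∈ Ioo (1 : ℝ) 3) →
      dd x.1 = 0) := by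
  obtain ⟨a, b⟩ := mm_mem h
  obtain ⟨z0, z1⟩ := zz_mem h
  obtain ⟨d0, d1⟩ := dd_mem h.1 h.2.1
  obtain ⟨l, u⟩ := h.2.2.2.1
  have ht := (th_mem d0).1
  have m0 : 0 < mm x.2.2.1 (zz x) := by linarith
  obtain ⟨c1, c2⟩ := sq1_mem m0 ht.1
  obtain ⟨c3, c4⟩ := sq1_mem m0 ht.2
  have c5 : max 0 (mm x.2.2.1 (zz x) - 1) ≤ 1 := max_le zero_le_one (by linarith)
  have ez : zz x = x.2.2.1 + (1 - dd x.1) * (44 - 2 * x.2.2.1) := rfl
  simp only [nb1]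
  refine ⟨by linarith, by linarith, by linarith, by linarith, by linarith, by linarith,
    fun k => ?_, fun k1 k => ?_⟩
  · by_contra hn
    have h1 : 0 < (1 - dd x.1) * (44 - 2 * x.2.2.1) :=
      mul_pos (sub_pos.2 (lt_of_le_of_ne d1 hn)) (by linarith)
    have h2 : mm x.2.2.1 (zz x) < 2 := by
      rcases mm_eq x.2.2.1 (zz x) with k | k | k <;> linarith
    rcases k.2 with k | k | k | k <;> simp only at k <;> linarith
  · by_contra hn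
    have h1 : 0 < dd x.1 * (44 - 2 * x.2.2.1) :=
      mul_pos (lt_of_le_of_ne d0 (Ne.symm hn)) (by linarith)
    have h2 : mm x.2.2.1 (zz x) < 1 := by
      rcases mm_eq x.2.2.1 (zz x) with k | k | k <;> linarith
    rw [max_eq_left (by linarith)] at c2 c4
    exact k ⟨⟨by linarith, by linarith⟩, by linarith, by linarith⟩

theorem nb1_inj (hx : RB x) (hy : RB y) (e : nb1 x = nb1 y) : x.1 = y.1 ∧ x.2.2.1 = y.2.2.1 := by
  simp only [nb1, Prod.mk.injEq] at e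
  have d0 := (dd_mem hx.1 hx.2.1).1
  obtain ⟨a, b⟩ := sq1_inj (by linarith [(mm_mem hx).1]) (by linarith [(mm_mem hy).1])
    (th_mem d0) (th_mem (dd_mem hy.1 hy.2.1).1) e.1 e.2.1
  rw [e.2.2] at a
  have c : x.2.2.1 = y.2.2.1 := (mm_mono (zz y)).injective a
  refine ⟨th_inj d0 ?_ b, c⟩
  have e3 := e.2.2
  simp only [zz, c, add_right_inj] at e3
  have := mul_right_cancel₀ (by linarith [hy.2.2.2.1.2] : 44 - 2 * y.2.2.1 ≠ 0) e3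
  linarith

theorem ext3 (h1 : x.1 = y.1) (h2 : x.2.1 = y.2.1) (h3 : x.2.2.1 = y.2.2.1)
    (h4 : x.2.2.2 = y.2.2.2) : x = y :=
  Prod.ext h1 (Prod.ext h2 (Prod.ext h3 h4))

theorem g_hole (s : ℕ) (hx : RB x) (hd : dd x.1 = 0) (a1 : y.1.1 = 36) (a2 : y.2.1.1 = 36)
    (a3 : y.1.2 = x.1.2) (a4 : y.2.1.2 = x.1.1) (a5 : y.2.2.1 = x.2.2.1) (hT : x.2.2.2 = y.2.2.2) :
    G0.Glue (.base s, x) (.handle s 0, y) := by
  have h := CappedGrope.Glue.hole (G := G0) s 0 x.1 x.2.2 (fib_of_dd hd)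
  rw [L_eq] at h
  have e1 : x = ((4 * ((0 : ℕ) : ℝ) + x.1.1, x.1.2), 0, x.2.2) :=
    ext3 (Prod.ext (by simp) rfl) hx.2.2.1 rfl rfl
  have e2 : y = ((36, x.1.2), (36, x.1.1), x.2.2) :=
    ext3 (Prod.ext a1 a3) (Prod.ext a2 a4) a5 hT.symm
  rw [← e1, ← e2] at h
  exact h

theorem g_fst (s : ℕ) (h0 : x.2.1 = 0) (hv : x.2.2 ∈ Fib) (hy : RH y) (a1 : y.1 = x.1)
    (a2 : y.2.1.1 = 0) (a3 : y.2.1.2 = x.2.2.1) (a4 : y.2.2.1 = 3) (hT : x.2.2.2 = y.2.2.2) :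
    G0.Glue (nextBlock (s, 0, false), x) (.handle s 0, y) := by
  have h := CappedGrope.Glue.fst (G := G0) s 0 x.1 x.2.2 (by rw [L_eq, ← a1]; exact hy.1) hv
  have e1 : x = (x.1, 0, x.2.2) := ext3 rfl h0 rfl rfl
  have e2 : y = (x.1, (0, x.2.2.1), (3, x.2.2.2)) := ext3 a1 (Prod.ext a2 a3) a4 hT.symm
  rw [← e1, ← e2] at h
  exact h

theorem g_snd (s : ℕ) (h0 : x.2.1 = 0) (hv : x.2.2 ∈ Fib) (hy : RH y) (a1 : y.1 = (0, x.2.2.1))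
    (a2 : y.2.1 = x.1) (a4 : y.2.2.1 = 1) (hT : x.2.2.2 = y.2.2.2) :
    G0.Glue (nextBlock (s, 0, true), x) (.handle s 0, y) := by
  have h := CappedGrope.Glue.snd (G := G0) s 0 x.1 x.2.2 (by rw [L_eq, ← a2]; exact hy.2.1) hv
  have e1 : x = (x.1, 0, x.2.2) := ext3 rfl h0 rfl rfl
  have e2 : y = ((0, x.2.2.1), x.1, (1, x.2.2.2)) := ext3 a1 a2 a4 hT.symm
  rw [← e1, ← e2] at h
  exact h

theorem sw_eq {a b : R3} (e : b = sw a) : a = (117 - b.2.2, b.2.1, b.1) := by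
  rw [e]
  simp [sw]

theorem b0h0 (hx : RB x) (hy : RH y) (e : nb0 x = tor y) (hT : x.2.2.2 = y.2.2.2) :
    G0.Glue (.base 0, x) (.handle 0 0, y) := by
  obtain ⟨r1, r2, r3, r4, r5, r6⟩ := nb0_range hx
  have e' : tor y = ((nb0 x).1, (nb0 x).2.1, (nb0 x).2.2) := e.symm
  obtain ⟨a1, a2, a3, a4⟩ := wall hy e' r1 (by linarith) (by linarith) (by linarith)
    (by linarith)
  have hd := r6 a4
  have b1 := midY hy e' r2 r3
  have b2 := midZ hy e' r4 r5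
  rw [nb0_fib hd] at a1 b1 b2
  exact g_hole 0 hx hd a2 a3 b1 b2 (by simp only at a1; linarith) hT

theorem b1h1 (hx : RB x) (hy : RH y) (e : nb1 x = sw (tor y)) (hT : x.2.2.2 = y.2.2.2) :
    G0.Glue (.base 1, x) (.handle 1 0, y) := by
  obtain ⟨r1, r2, r3, r4, r5, r6, -, r8⟩ := nb1_range hx
  have e' := sw_eq e
  have t := (tor_range hy).2.1
  rw [e'] at t
  obtain ⟨a1, a2, a3, a4⟩ := wall hy e' (by linarith) r3 r4 r1 r2
  have hd := r8 (by simp only at t; linarith) a4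
  have hf := (fib_of_dd hd).1
  rw [nb1_fib hd hx.2.2.2] at e' a1
  exact g_hole 1 hx hd a2 a3 (midY hy e' hf.2.1 hf.2.2) (midZ hy e' hf.1.1 hf.1.2)
    (by simp only at a1; linarith) hT

theorem b1h0 (hx : RB x) (hy : RH y) (e : nb1 x = tor y) (hT : x.2.2.2 = y.2.2.2) :
    G0.Glue (.base 1, x) (.handle 0 0, y) := by
  obtain ⟨r1, r2, r3, r4, -, -, r7, -⟩ := nb1_range hx
  have e' : tor y = ((nb1 x).1, (nb1 x).2.1, (nb1 x).2.2) := e.symm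
  obtain ⟨a1, a2, a3⟩ := inner hy e' r1 r2 r3 r4
  have hd := r7 (a1 ▸ hy.1)
  rw [nb1_bd hd hx.2.2.2] at e' a1
  exact g_fst 0 hx.2.2.1 hx.2.2.2 hy a1 a2 (midZ hy e' hx.2.2.2.1.1 hx.2.2.2.1.2) a3 hT

theorem cfst (s : ℕ) (hx : RC x) (hy : RH y) (e : tor y = (x.1.1, x.1.2, x.2.2.1))
    (hT : x.2.2.2 = y.2.2.2) : G0.Glue (nextBlock (s, 0, false), x) (.handle s 0, y) := by
  obtain ⟨a1, a2, a3⟩ := inner hy e hx.1.1.1 hx.1.1.2 hx.1.2.1 hx.1.2.2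
  exact g_fst s hx.2.1 hx.2.2 hy a1 a2 (midZ hy e hx.2.2.1.1 hx.2.2.1.2) a3 hT

theorem csnd (s : ℕ) (hx : RC x) (hy : RH y) (e : tor y = (-2 - x.1.1, x.2.2.1, x.1.2))
    (hT : x.2.2.2 = y.2.2.2) : G0.Glue (nextBlock (s, 0, true), x) (.handle s 0, y) := by
  obtain ⟨a1, a2, a3⟩ := left hy e (by linarith [hx.1.1.2]) (by linarith [hx.1.1.1]) hx.2.2.1.1
    hx.2.2.1.2 hx.1.2.1 hx.1.2.2
  exact g_snd s hx.2.1 hx.2.2 hy a1 (a2.trans (Prod.ext (by simp) rfl)) a3 hT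

/-- the order of the blocks -/
def rk : Block → ℕ
  | .base s => s
  | .cap t => 2 + t.1 + (if t.2.2 then 1 else 0) * t.1
  | .handle s _ => 5 + s

theorem half (x y : G0.Pts) (hr : rk x.1.1 ≤ rk y.1.1)
    (e : nat x.1.1 x.1.2 = nat y.1.1 y.1.2) (hT : x.1.2.2.2.2 = y.1.2.2.2.2) :
    x.1 = y.1 ∨ G0.Glue x.1 y.1 := by
  have hx := pts_cases x
  have hy := pts_cases y
  obtain ⟨⟨b, x⟩, hx0⟩ := x
  obtain ⟨⟨c, y⟩, hy0⟩ := y
  simp only at hx hy hr e hT ⊢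
  clear hx0 hy0
  have e1 := congrArg (fun t : R3 => t.1) e
  have e2 := congrArg (fun t : R3 => t.2.1) e
  have e3 := congrArg (fun t : R3 => t.2.2) e
  rcases hx with ⟨rfl, hx⟩ | ⟨rfl, hx⟩ | ⟨rfl, hx⟩ | ⟨rfl, hx⟩ | ⟨rfl, hx⟩ | ⟨rfl, hx⟩ | ⟨rfl, hx⟩ <;>
    rcases hy with ⟨rfl, hy⟩ | ⟨rfl, hy⟩ | ⟨rfl, hy⟩ | ⟨rfl, hy⟩ | ⟨rfl, hy⟩ | ⟨rfl, hy⟩ | ⟨rfl, hy⟩ <;>
    (try exact absurd hr (by decide)) <;>
    simp only [nat_b0, nat_b1, nat_h0, nat_h1, nat_c0, nat_c1, nat_c2, sw] at e1 e2 e3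
  · obtain ⟨a, b⟩ := nb0_inj hx hy e
    exact Or.inl (congrArg _ (ext3 a (hx.2.2.1.trans hy.2.2.1.symm) b hT))
  · linarith [(nb0_range hx).1, (nb1_range hy).2.1]
  · exact Or.inr (b0h0 hx hy e hT)
  · linarith [(nb0_range hx).1, (tor_range hy).2.2.2]
  · linarith [(nb0_range hx).1, hy.1.1.1]
  · linarith [(nb0_range hx).1, hy.2.2.1.2]
  · linarith [(nb0_range hx).1, hy.1.2.2]
  · obtain ⟨a, b⟩ := nb1_inj hx hy e
    exact Or.inl (congrArg _ (ext3 a (hx.2.2.1.trans hy.2.2.1.symm) b hT))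
  · exact Or.inr (b1h0 hx hy e hT)
  · exact Or.inr (b1h1 hx hy e hT)
  · linarith [(nb1_range hx).1, hy.1.1.1]
  · linarith [(nb1_range hx).2.2.2.2.2.1, hy.1.1.2]
  · linarith [(nb1_range hx).2.2.2.2.2.1, hy.1.1.1]
  · obtain ⟨a, b, c⟩ := tor_inj hx hy e
    exact Or.inl (congrArg _ (ext3 a b c hT))
  · linarith [(tor_range hx).2.2.2, (tor_range hy).2.1]
  · obtain ⟨a, b, c⟩ := tor_inj hx hy (Prod.ext (by linarith) (Prod.ext e2 e1))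
    exact Or.inl (congrArg _ (ext3 a b c hT))
  · exact Or.inr (csnd 0 hx hy e.symm hT)
  · linarith [hx.1.2.2, (tor_range hy).2.1]
  · exact Or.inl (congrArg _ (ext3 (Prod.ext (by linarith) e3) (hx.2.1.trans hy.2.1.symm) e2 hT))
  · linarith [hx.1.2.2, hy.1.1.2]
  · linarith [hx.1.2.2, hy.1.1.1]
  · linarith [hx.1.1.2, (tor_range hy).2.2.2]
  · exact Or.inr (cfst 1 hx hy (Prod.ext (by linarith) (Prod.ext e2.symm e1.symm)) hT)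
  · exact Or.inl (congrArg _ (ext3 (Prod.ext (by linarith) e2) (hx.2.1.trans hy.2.1.symm) e1 hT))
  · linarith [hx.1.1.1, hy.1.1.1]
  · linarith [hx.1.1.1, (tor_range hy).2.2.2]
  · exact Or.inr (csnd 1 hx hy (Prod.ext (by linarith) (Prod.ext e2.symm e1.symm)) hT)
  · exact Or.inl (congrArg _ (ext3 (Prod.ext (by linarith) e1) (hx.2.1.trans hy.2.1.symm) e2 hT))

end Inj

theorem inj (x y : G0.Pts) (h : emb x = emb y) :
    (Quot.mk _ x : G0.Thickening) = Quot.mk _ y := by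
  obtain ⟨e, hT⟩ := emb_inj h
  rcases le_total (Inj.rk x.1.1) (Inj.rk y.1.1) with hr | hr
  · rcases Inj.half x y hr e hT with k | k
    · rw [Subtype.ext k]
    · exact Quot.sound k
  · rcases Inj.half y x hr e.symm hT.symm with k | k
    · rw [Subtype.ext k]
    · exact Eq.symm (Quot.sound (r := fun x y : G0.Pts => G0.Glue x.1 y.1) k)

end Vale.Agent.P215Z.Emb
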