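import Vale.Agent.P215Z.Top.Defs

/-!
# P215: the natural coordinates of the blocks
-/

noncomputable section

namespace Vale.Agent.P215Z.Emb

open P215.H788 Set

abbrev R2 : Type := ℝ × ℝ
abbrev R3 : Type := ℝ × ℝ × ℝ

theorem L_eq : G0.L = 36 := by
  norm_num [CappedGrope.L, G0]

/-! ### the blocks -/

def RB (x : E) : Prop := x.1 ∈ Sq 36 ∧ x.1 ∉ hole 0 ∧ x.2.1 = 0 ∧ x.2.2 ∈ Fib

def RH (x : E) : Prop := x.1 ∈ bdSq 36 ∧ x.2.1 ∈ bdSq 36 ∧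
  ¬ (x.1.1 = 36 ∧ x.2.1.1 = 36 ∧ x.1.2 ∈ Ioo 1 3 ∧ x.2.1.2 ∈ Ioo 1 3) ∧ x.2.2 ∈ Fib

def RC (x : E) : Prop := x.1 ∈ Sq 36 ∧ x.2.1 = 0 ∧ x.2.2 ∈ Fib

theorem genus_pos {s j : ℕ} (h : j < genusOf G0.genera s) : j = 0 ∧ (s = 0 ∨ s = 1) := by
  rcases s with _ | _ | s <;> simp [genusOf, G0] at h ⊢ <;> exact h

/-- the seven blocks -/
theorem pts_cases (x : G0.Pts) : (x.1.1 = .base 0 ∧ RB x.1.2) ∨ (x.1.1 = .base 1 ∧ RB x.1.2) ∨
    (x.1.1 = .handle 0 0 ∧ RH x.1.2) ∨ (x.1.1 = .handle 1 0 ∧ RH x.1.2) ∨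
    (x.1.1 = .cap (0, 0, true) ∧ RC x.1.2) ∨ (x.1.1 = .cap (1, 0, false) ∧ RC x.1.2) ∨
    (x.1.1 = .cap (1, 0, true) ∧ RC x.1.2) := by
  obtain ⟨⟨b, x⟩, h⟩ := x
  rcases b with s | ⟨s, j⟩ | ⟨s, j, t⟩
  · obtain ⟨h1, ⟨h2, h3⟩, h4, h5⟩ := h
    rw [L_eq] at h2
    have h6 : RB x := ⟨h2, h3 0 h1, h4, h5⟩
    rcases (genus_pos h1).2 with rfl | rfl <;> simp [h6]
  · obtain ⟨h1, ⟨h2, h3, h4⟩, h5⟩ := h
    rw [L_eq] at h2 h3 h4
    have h6 : RH x := ⟨h2, h3, h4, h5⟩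
    obtain ⟨rfl, rfl | rfl⟩ := genus_pos h1 <;> simp [h6]
  · obtain ⟨⟨h1, h2⟩, h3, h4, h5⟩ := h
    rw [L_eq] at h3
    have h6 : RC x := ⟨h3, h4, h5⟩
    obtain ⟨rfl, rfl | rfl⟩ := genus_pos h1 <;> cases t <;> simp [h6] at h2 ⊢

/-! ### the tori -/

def psi (r y : ℝ) : ℝ := y - r * max 0 (1 - y) + r * max 0 (y - 35)

def sig (r : ℝ) (p : R2) : R2 := (psi r p.1, psi r p.2)

/-- the radius -/
def rad (x : E) : ℝ := 2 + psi (x.2.2.1 - 1) x.2.1.1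

/-- the height -/
def hgt (x : E) : ℝ := psi (x.2.2.1 - 1) x.2.1.2

def tor (x : E) : R3 := (psi (rad x) x.1.1, psi (rad x) x.1.2, hgt x)

def sw (y : R3) : R3 := (y.2.2, y.2.1, 117 - y.1)

theorem psi_mono {r : ℝ} (hr : 0 ≤ r) : StrictMono (psi r) := fun a b h => by
  have h1 : max 0 (1 - b) ≤ max 0 (1 - a) := max_le_max le_rfl (by linarith)
  have h2 : max 0 (a - 35) ≤ max 0 (b - 35) := max_le_max le_rfl (by linarith)
  have h3 := mul_le_mul_of_nonneg_left h1 hr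
  have h4 := mul_le_mul_of_nonneg_left h2 hr
  unfold psi
  linarith

theorem psi_mid (r : ℝ) {y : ℝ} (h1 : 1 ≤ y) (h2 : y ≤ 35) : psi r y = y := by
  rw [psi, max_eq_left (by linarith), max_eq_left (by linarith)]
  ring

theorem psi_zero (r : ℝ) : psi r 0 = -r := by norm_num [psi]

theorem psi_top (r : ℝ) : psi r 36 = 36 + r := by norm_num [psi]

theorem psi_nil (y : ℝ) : psi 0 y = y := by simp [psi]

theorem psi_mem {r y : ℝ} (hr : 0 ≤ r) (h : y ∈ Icc (0 : ℝ) 36) :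
    -r ≤ psi r y ∧ psi r y ≤ 36 + r :=
  ⟨psi_zero r ▸ (psi_mono hr).monotone h.1, psi_top r ▸ (psi_mono hr).monotone h.2⟩

theorem psi_lo {r y : ℝ} (hr : 0 ≤ r) (h : y ≤ 1) : psi r y ≤ y := by
  rw [psi, max_eq_left (a := (0 : ℝ)) (b := y - 35) (by linarith)]
  have := mul_nonneg hr (le_max_left 0 (1 - y))
  linarith

theorem psi_hi {r y : ℝ} (hr : 0 ≤ r) (h : 35 ≤ y) : y ≤ psi r y := by
  rw [psi, max_eq_left (a := (0 : ℝ)) (b := 1 - y) (by linarith)]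
  have := mul_nonneg hr (le_max_left 0 (y - 35))
  linarith

/-- a value in `[1, 35]` is only taken at itself -/
theorem psi_eq {r y t : ℝ} (hr : 0 ≤ r) (h1 : 1 ≤ t) (h2 : t ≤ 35) (h : psi r y = t) : y = t :=
  (psi_mono hr).injective (h.trans (psi_mid r h1 h2).symm)

/-- the image of the boundary square is in the boundary of `[-r, 36 + r]²` -/
theorem sig_bd {r : ℝ} (hr : 0 ≤ r) {p : R2} (hp : p ∈ bdSq 36) :
    (-r ≤ psi r p.1 ∧ psi r p.1 ≤ 36 + r) ∧ (-r ≤ psi r p.2 ∧ psi r p.2 ≤ 36 + r) ∧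
      ((p.1 = 0 ∧ psi r p.1 = -r) ∨ (p.1 = 36 ∧ psi r p.1 = 36 + r) ∨
        (p.2 = 0 ∧ psi r p.2 = -r) ∨ (p.2 = 36 ∧ psi r p.2 = 36 + r)) := by
  refine ⟨psi_mem hr hp.1.1, psi_mem hr hp.1.2, ?_⟩
  rcases hp.2 with h | h | h | h <;> simp [h, psi_zero, psi_top]

theorem sig_inj {r s : ℝ} (hr : 0 ≤ r) (hs : 0 ≤ s) {p q : R2} (hp : p ∈ bdSq 36)
    (hq : q ∈ bdSq 36) (h1 : psi r p.1 = psi s q.1) (h2 : psi r p.2 = psi s q.2) :
    r = s ∧ p = q := by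
  obtain ⟨a1, a2, a3⟩ := sig_bd hr hp
  obtain ⟨b1, b2, b3⟩ := sig_bd hs hq
  have h : r = s := by
    refine le_antisymm ?_ ?_
    · rcases a3 with a | a | a | a <;> linarith [a.2]
    · rcases b3 with a | a | a | a <;> linarith [a.2]
  subst h
  exact ⟨rfl, Prod.ext ((psi_mono hr).injective h1) ((psi_mono hr).injective h2)⟩

theorem rad_mem {x : E} (h : RH x) : 0 ≤ rad x ∧ rad x ≤ 40 ∧ -2 ≤ hgt x ∧ hgt x ≤ 38 := by
  obtain ⟨⟨a, b⟩, -⟩ := h.2.2.2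
  obtain ⟨⟨c, d⟩, ⟨e, f⟩, -⟩ := sig_bd (r := x.2.2.1 - 1) (by linarith) h.2.1
  refine ⟨?_, ?_, ?_, ?_⟩ <;> simp only [rad, hgt] <;> linarith

theorem tor_inj {x y : E} (hx : RH x) (hy : RH y) (h : tor x = tor y) :
    x.1 = y.1 ∧ x.2.1 = y.2.1 ∧ x.2.2.1 = y.2.2.1 := by
  simp only [tor, Prod.mk.injEq] at h
  obtain ⟨a, b⟩ := sig_inj (rad_mem hx).1 (rad_mem hy).1 hx.1 hy.1 h.1 h.2.1
  obtain ⟨c, d⟩ := sig_inj (sub_nonneg.2 hx.2.2.2.1.1) (sub_nonneg.2 hy.2.2.2.1.1) hx.2.1 hy.2.1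
    (add_left_cancel a) h.2.2
  exact ⟨b, d, by linarith⟩

/-! ### the bases -/

def dd (x : R2) : ℝ := max (max (1 - x.1) ((x.1 - 3) / 33)) (max (1 - x.2) ((x.2 - 3) / 33))

def th1 (d t : ℝ) : ℝ := 1 + (t - (1 - d)) / (1 + 17 * d)

def th (x : R2) : R2 := (th1 (dd x) x.1, th1 (dd x) x.2)

def mu (x : R2) : ℝ := 1 - dd x / 4

def nb0 (x : E) : R3 := (73 + x.2.2.1, 2 + mu x.1 * ((th x.1).2 - 2), 2 + mu x.1 * ((th x.1).1 - 2))

def zz (x : E) : ℝ := x.2.2.1 + (1 - dd x.1) * (44 - 2 * x.2.2.1)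

def mm (ρ Z : ℝ) : ℝ := max (max (1 - (44 - ρ - Z)) (2 - (Z - ρ))) ((ρ + 5) / 10)

/-- the affine map from `[1, 3]` to `[2 - m, 2 + m + 32 max 0 (m - 1)]` -/
def sq1 (m t : ℝ) : ℝ := 2 - m + (m + 16 * max 0 (m - 1)) * (t - 1)

def nb1 (x : E) : R3 :=
  (sq1 (mm x.2.2.1 (zz x)) (th x.1).1, sq1 (mm x.2.2.1 (zz x)) (th x.1).2, zz x)

/-- the natural coordinates -/
def nat : Block → E → R3
  | .base 0, x => nb0 x
  | .base (_ + 1), x => nb1 x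
  | .handle 0 _, x => tor x
  | .handle (_ + 1) _, x => sw (tor x)
  | .cap (0, _, _), x => (-2 - x.1.1, x.2.2.1, x.1.2)
  | .cap (_ + 1, _, false), x => (x.2.2.1, x.1.2, 117 - x.1.1)
  | .cap (_ + 1, _, true), x => (x.1.2, x.2.2.1, 119 + x.1.1)

theorem nat_b0 (x : E) : nat (.base 0) x = nb0 x := rfl
theorem nat_b1 (x : E) : nat (.base 1) x = nb1 x := rfl
theorem nat_h0 (x : E) : nat (.handle 0 0) x = tor x := rfl
theorem nat_h1 (x : E) : nat (.handle 1 0) x = sw (tor x) := rfl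
theorem nat_c2 (x : E) : nat (.cap (0, 0, true)) x = (-2 - x.1.1, x.2.2.1, x.1.2) := rfl
theorem nat_c0 (x : E) : nat (.cap (1, 0, false)) x = (x.2.2.1, x.1.2, 117 - x.1.1) := rfl
theorem nat_c1 (x : E) : nat (.cap (1, 0, true)) x = (x.1.2, x.2.2.1, 119 + x.1.1) := rfl

theorem dd_ge (x : R2) : 1 - x.1 ≤ dd x ∧ (x.1 - 3) / 33 ≤ dd x ∧ 1 - x.2 ≤ dd x ∧
    (x.2 - 3) / 33 ≤ dd x := by
  simp [dd]

theorem dd_eq (x : R2) : dd x = 1 - x.1 ∨ dd x = (x.1 - 3) / 33 ∨ dd x = 1 - x.2 ∨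
    dd x = (x.2 - 3) / 33 := by
  unfold dd
  rcases max_choice (max (1 - x.1) ((x.1 - 3) / 33)) (max (1 - x.2) ((x.2 - 3) / 33)) with h | h
  · rcases max_choice (1 - x.1) ((x.1 - 3) / 33) with k | k <;> rw [h, k] <;> simp
  · rcases max_choice (1 - x.2) ((x.2 - 3) / 33) with k | k <;> rw [h, k] <;> simp

theorem dd_mem {x : R2} (h : x ∈ Sq 36) (h' : x ∉ hole 0) : 0 ≤ dd x ∧ dd x ≤ 1 := by
  obtain ⟨⟨a, b⟩, c, d⟩ := h
  obtain ⟨e1, e2, e3, e4⟩ := dd_ge x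
  refine ⟨?_, ?_⟩
  · by_contra h1
    exact h' ⟨⟨by push_cast; linarith, by push_cast; linarith⟩, by linarith, by linarith⟩
  · rcases dd_eq x with k | k | k | k <;> linarith

theorem dd_fib {x : R2} (h : x ∈ bdFib) : dd x = 0 := by
  obtain ⟨⟨⟨a, b⟩, c, d⟩, e⟩ := h
  obtain ⟨e1, e2, e3, e4⟩ := dd_ge x
  refine le_antisymm ?_ ?_
  · rcases dd_eq x with k | k | k | k <;> linarith
  · rcases e with k | k | k | k <;> linarith

theorem dd_bd {x : R2} (h : x ∈ bdSq 36) : dd x = 1 := by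
  obtain ⟨⟨⟨a, b⟩, c, d⟩, e⟩ := h
  obtain ⟨e1, e2, e3, e4⟩ := dd_ge x
  refine le_antisymm ?_ ?_
  · rcases dd_eq x with k | k | k | k <;> linarith
  · rcases e with k | k | k | k <;> linarith

theorem fib_of_dd {x : R2} (h : dd x = 0) : x ∈ bdFib := by
  obtain ⟨e1, e2, e3, e4⟩ := dd_ge x
  refine ⟨⟨⟨by linarith, by linarith⟩, by linarith, by linarith⟩, ?_⟩
  rcases dd_eq x with k | k | k | k
  · exact .inl (by linarith)
  · exact .inr (.inl (by linarith))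
  · exact .inr (.inr (.inl (by linarith)))
  · exact .inr (.inr (.inr (by linarith)))

theorem bd_of_dd {x : R2} (h : dd x = 1) : x ∈ bdSq 36 := by
  obtain ⟨e1, e2, e3, e4⟩ := dd_ge x
  refine ⟨⟨⟨by linarith, by linarith⟩, by linarith, by linarith⟩, ?_⟩
  rcases dd_eq x with k | k | k | k
  · exact .inl (by linarith)
  · exact .inr (.inl (by linarith))
  · exact .inr (.inr (.inl (by linarith)))
  · exact .inr (.inr (.inr (by linarith)))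

theorem th1_rec {d : ℝ} (hd : 0 ≤ d) (t : ℝ) : t = 1 - d + (1 + 17 * d) * (th1 d t - 1) := by
  have : 1 + 17 * d ≠ 0 := by positivity
  rw [th1]
  field_simp
  ring

theorem th1_zero (t : ℝ) : th1 0 t = t := by simp [th1]

theorem th1_one (t : ℝ) : th1 1 t = 1 + t / 18 := by norm_num [th1]

theorem th_mem {x : R2} (h : 0 ≤ dd x) : th x ∈ bdFib := by
  have h0 : 0 < 1 + 17 * dd x := by positivity
  have k1 : ∀ t, 1 - t ≤ dd x → (t - 3) / 33 ≤ dd x → th1 (dd x) t ∈ Icc (1 : ℝ) 3 := fun t a b =>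
    ⟨le_add_of_nonneg_right (div_nonneg (by linarith) h0.le), by
      have : (t - (1 - dd x)) / (1 + 17 * dd x) ≤ 2 := (div_le_iff₀ h0).2 (by linarith)
      unfold th1
      linarith⟩
  have k2 : ∀ t, dd x = 1 - t → th1 (dd x) t = 1 := fun t a => by
    rw [th1, show t - (1 - dd x) = 0 by linarith, zero_div, add_zero]
  have k3 : ∀ t, dd x = (t - 3) / 33 → th1 (dd x) t = 3 := fun t a => by
    rw [th1, (div_eq_iff h0.ne').2 (show t - (1 - dd x) = 2 * (1 + 17 * dd x) by linarith)]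
    norm_num
  obtain ⟨e1, e2, e3, e4⟩ := dd_ge x
  refine ⟨⟨k1 _ e1 e2, k1 _ e3 e4⟩, ?_⟩
  rcases dd_eq x with k | k | k | k
  · exact .inl (k2 _ k)
  · exact .inr (.inl (k3 _ k))
  · exact .inr (.inr (.inl (k2 _ k)))
  · exact .inr (.inr (.inr (k3 _ k)))

theorem th_inj {x y : R2} (h : 0 ≤ dd x) (h1 : dd x = dd y) (h2 : th x = th y) : x = y := by
  simp only [th, Prod.mk.injEq, ← h1] at h2
  exact Prod.ext (by rw [th1_rec h x.1, h2.1, ← th1_rec h]) (by rw [th1_rec h x.2, h2.2, ← th1_rec h])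

theorem th_fib {x : R2} (h : dd x = 0) : th x = x := by rw [th, h, th1_zero, th1_zero]

theorem mm_ge (ρ Z : ℝ) : 1 - (44 - ρ - Z) ≤ mm ρ Z ∧ 2 - (Z - ρ) ≤ mm ρ Z ∧
    (ρ + 5) / 10 ≤ mm ρ Z := by
  simp [mm]

theorem mm_eq (ρ Z : ℝ) : mm ρ Z = 1 - (44 - ρ - Z) ∨ mm ρ Z = 2 - (Z - ρ) ∨
    mm ρ Z = (ρ + 5) / 10 := by
  unfold mm
  rcases max_choice (max (1 - (44 - ρ - Z)) (2 - (Z - ρ))) ((ρ + 5) / 10) with h | h
  · rcases max_choice (1 - (44 - ρ - Z)) (2 - (Z - ρ)) with k | k <;> rw [h, k] <;> simp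
  · simp [h]

theorem mm_mono (Z : ℝ) : StrictMono fun ρ => mm ρ Z := fun a b h => by
  obtain ⟨e1, e2, e3⟩ := mm_ge b Z
  rcases mm_eq a Z with k | k | k <;> simp only [k] <;> linarith

theorem zz_mem {x : E} (h : RB x) : x.2.2.1 ≤ zz x ∧ zz x ≤ 44 - x.2.2.1 := by
  obtain ⟨a, b⟩ := dd_mem h.1 h.2.1
  obtain ⟨c, d⟩ := h.2.2.2.1
  unfold zz
  constructor <;> nlinarith

theorem mm_mem {x : E} (h : RB x) : 3 / 5 ≤ mm x.2.2.1 (zz x) ∧ mm x.2.2.1 (zz x) ≤ 2 := by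
  obtain ⟨a, b⟩ := zz_mem h
  obtain ⟨c, d⟩ := h.2.2.2.1
  obtain ⟨e1, e2, e3⟩ := mm_ge x.2.2.1 (zz x)
  refine ⟨by linarith, ?_⟩
  rcases mm_eq x.2.2.1 (zz x) with k | k | k <;> linarith

theorem sq1_one (m : ℝ) : sq1 m 1 = 2 - m := by simp [sq1]

theorem sq1_three (m : ℝ) : sq1 m 3 = 2 + m + 32 * max 0 (m - 1) := by
  rw [sq1]
  ring

theorem sq1_mono {m : ℝ} (hm : 0 < m) : StrictMono (sq1 m) := fun a b h => by
  have h1 : 0 < m + 16 * max 0 (m - 1) := by positivity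
  have := mul_lt_mul_of_pos_left (sub_lt_sub_right h 1) h1
  unfold sq1
  linarith

theorem sq1_mem {m t : ℝ} (hm : 0 < m) (h : t ∈ Icc (1 : ℝ) 3) :
    2 - m ≤ sq1 m t ∧ sq1 m t ≤ 2 + m + 32 * max 0 (m - 1) :=
  ⟨sq1_one m ▸ (sq1_mono hm).monotone h.1, sq1_three m ▸ (sq1_mono hm).monotone h.2⟩

theorem sq1_le {m : ℝ} (hm : m ≤ 1) (t : ℝ) : sq1 m t = 2 + m * (t - 2) := by
  rw [sq1, max_eq_left (by linarith)]
  ring

theorem sq1_two (t : ℝ) : sq1 2 t = 18 * (t - 1) := by norm_num [sq1]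

/-- nested squares -/
theorem sq1_inj {m n : ℝ} (hm : 0 < m) (hn : 0 < n) {a b : R2} (ha : a ∈ bdFib) (hb : b ∈ bdFib)
    (h1 : sq1 m a.1 = sq1 n b.1) (h2 : sq1 m a.2 = sq1 n b.2) : m = n ∧ a = b := by
  have key : ∀ {m n : ℝ} {a b : R2}, 0 < n → a ∈ bdFib → b ∈ bdFib → sq1 m a.1 = sq1 n b.1 →
      sq1 m a.2 = sq1 n b.2 → m ≤ n := by
    intro m n a b hn ha hb h1 h2
    by_contra h
    have h3 : max 0 (n - 1) ≤ max 0 (m - 1) := max_le_max le_rfl (by linarith)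
    obtain ⟨b1, b2⟩ := sq1_mem hn hb.1.1
    obtain ⟨b3, b4⟩ := sq1_mem hn hb.1.2
    rcases ha.2 with k | k | k | k
    · rw [k, sq1_one] at h1
      linarith
    · rw [k, sq1_three] at h1
      linarith
    · rw [k, sq1_one] at h2
      linarith
    · rw [k, sq1_three] at h2
      linarith
  have h : m = n := le_antisymm (key hn ha hb h1 h2) (key hm hb ha h1.symm h2.symm)
  subst h
  exact ⟨rfl, Prod.ext ((sq1_mono hm).injective h1) ((sq1_mono hm).injective h2)⟩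

theorem nb0_fib {x : E} (h : dd x.1 = 0) : nb0 x = (73 + x.2.2.1, x.1.2, x.1.1) := by
  simp [nb0, mu, th_fib h, h]

theorem nb1_fib {x : E} (h : dd x.1 = 0) (hv : x.2.2 ∈ Fib) :
    nb1 x = (x.1.1, x.1.2, 44 - x.2.2.1) := by
  obtain ⟨c, d⟩ := hv.1
  have h1 : zz x = 44 - x.2.2.1 := by
    rw [zz, h]
    ring
  have h2 : mm x.2.2.1 (zz x) = 1 := by
    obtain ⟨e1, e2, e3⟩ := mm_ge x.2.2.1 (zz x)
    rcases mm_eq x.2.2.1 (zz x) with k | k | k <;> linarith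
  rw [nb1, h2, h1, th_fib h, sq1_le le_rfl, sq1_le le_rfl]
  simp

theorem nb1_bd {x : E} (h : dd x.1 = 1) (hv : x.2.2 ∈ Fib) :
    nb1 x = (x.1.1, x.1.2, x.2.2.1) := by
  obtain ⟨c, d⟩ := hv.1
  have h1 : zz x = x.2.2.1 := by
    rw [zz, h]
    ring
  have h2 : mm x.2.2.1 (zz x) = 2 := by
    obtain ⟨e1, e2, e3⟩ := mm_ge x.2.2.1 (zz x)
    rcases mm_eq x.2.2.1 (zz x) with k | k | k <;> linarith
  rw [nb1, h2, h1, th, h, sq1_two, sq1_two, th1_one, th1_one]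
  refine Prod.ext ?_ (Prod.ext ?_ rfl) <;> simp only <;> ring

/-! ### the unit coordinates -/

/-- `f` up to `c`, then parallel to `g` -/
def jn (c : ℝ) (f g : ℝ → ℝ) (t : ℝ) : ℝ := f (min t c) + g (max t c) - g c

/-- the affine map with `a ↦ k`, `b ↦ l` -/
def af (a b k l t : ℝ) : ℝ := k + (l - k) / (b - a) * (t - a)

theorem jn_mono {c : ℝ} {f g : ℝ → ℝ} (hf : StrictMono f) (hg : StrictMono g) :
    StrictMono (jn c f g) := fun a b h => by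
  unfold jn
  rcases lt_or_ge a c with h1 | h1
  · have h2 := hf (show min a c < min b c by rw [min_eq_left h1.le]; exact lt_min h h1)
    have h3 := hg.monotone (max_le_max_right c h.le)
    linarith
  · have h2 := hg h
    rw [min_eq_right h1, min_eq_right (h1.trans h.le), max_eq_left h1, max_eq_left (h1.trans h.le)]
    linarith

theorem af_mono {a b k l : ℝ} (h1 : a < b) (h2 : k < l) : StrictMono (af a b k l) := fun s t h => by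
  have := mul_lt_mul_of_pos_left (sub_lt_sub_right h a) (div_pos (sub_pos.2 h2) (sub_pos.2 h1))
  unfold af
  linarith

theorem jn_le {c t : ℝ} (f g : ℝ → ℝ) (h : t ≤ c) : jn c f g t = f t := by
  rw [jn, min_eq_left h, max_eq_right h, add_sub_cancel_right]

theorem jn_ge {c t : ℝ} (f g : ℝ → ℝ) (h : c ≤ t) : jn c f g t = f c + g t - g c := by
  rw [jn, min_eq_right h, max_eq_left h]

def uX : ℝ → ℝ := jn (-19 / 2) (af (-41) (-19 / 2) 0 1) <| jn (-5 / 2) (af 0 1 0 1) <|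
  jn (1 / 2) (af 0 3 0 1) <| jn (7 / 2) (af 0 1 0 1) <| jn 40 (af (7 / 2) 40 0 1) <|
  jn 41 (af 0 1 0 1) <| jn 75 (af 0 34 0 1) (af 0 2 0 1)

def uY : ℝ → ℝ := jn (-5) (af (-41) (-5) 0 1) <| jn (-4) (af 0 1 0 1) <|
  jn (1 / 2) (af (-4) (1 / 2) 0 1) <| jn (7 / 2) (af 0 1 0 1) <| jn 40 (af (7 / 2) 40 0 1) <|
  jn 41 (af 0 1 0 1) (af 0 36 0 1)

def uZ : ℝ → ℝ := jn (1 / 2) (af (-3) (1 / 2) 0 1) <| jn (7 / 2) (af 0 1 0 1) <|
  jn 60 (af (7 / 2) 60 0 1) <| jn 61 (af 0 1 0 1) <| jn (203 / 2) (af 61 (203 / 2) 0 1) <|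
  jn (217 / 2) (af 0 1 0 1) <| jn (271 / 2) (af 0 27 0 1) <| jn (285 / 2) (af 0 1 0 1)
  (af (285 / 2) 158 0 1)

theorem uX_mono : StrictMono uX := by
  unfold uX
  repeat' first | apply jn_mono | exact af_mono (by norm_num) (by norm_num)

theorem uY_mono : StrictMono uY := by
  unfold uY
  repeat' first | apply jn_mono | exact af_mono (by norm_num) (by norm_num)

theorem uZ_mono : StrictMono uZ := by
  unfold uZ
  repeat' first | apply jn_mono | exact af_mono (by norm_num) (by norm_num)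

theorem uX_val : uX (-41) = 0 ∧ uX (-19 / 2) = 1 ∧ uX (-5 / 2) = 8 ∧ uX (1 / 2) = 9 ∧
    uX (7 / 2) = 12 ∧ uX 40 = 13 ∧ uX 41 = 14 ∧ uX 75 = 15 ∧ uX 77 = 16 := by
  norm_num [uX, jn, af]

theorem uY_val : uY (-41) = 0 ∧ uY (-5) = 1 ∧ uY (-4) = 2 ∧ uY (1 / 2) = 3 ∧ uY (7 / 2) = 6 ∧
    uY 40 = 7 ∧ uY 41 = 8 ∧ uY 77 = 9 := by
  norm_num [uY, jn, af]

theorem uZ_val : uZ (-3) = 0 ∧ uZ (1 / 2) = 1 ∧ uZ (7 / 2) = 4 ∧ uZ 60 = 5 ∧ uZ 61 = 6 ∧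
    uZ (203 / 2) = 7 ∧ uZ (217 / 2) = 14 ∧ uZ (271 / 2) = 15 ∧ uZ (285 / 2) = 22 ∧ uZ 158 = 23 := by
  norm_num [uZ, jn, af]

theorem uX_a {t : ℝ} (h1 : -19 / 2 ≤ t) (h2 : t ≤ -5 / 2) : uX t = t + 21 / 2 := by
  rw [uX, jn_ge _ _ h1, jn_le _ _ h2]
  norm_num [jn, af]
  ring

theorem uX_b {t : ℝ} (h1 : 1 / 2 ≤ t) (h2 : t ≤ 7 / 2) : uX t = t + 17 / 2 := by
  rw [uX, jn_ge _ _ (by linarith), jn_ge _ _ (by linarith), jn_ge _ _ h1, jn_le _ _ h2]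
  norm_num [jn, af]
  ring

theorem uY_b {t : ℝ} (h1 : 1 / 2 ≤ t) (h2 : t ≤ 7 / 2) : uY t = t + 5 / 2 := by
  rw [uY, jn_ge _ _ (by linarith), jn_ge _ _ (by linarith), jn_ge _ _ h1, jn_le _ _ h2]
  norm_num [jn, af]
  ring

theorem uZ_a {t : ℝ} (h1 : 1 / 2 ≤ t) (h2 : t ≤ 7 / 2) : uZ t = t + 1 / 2 := by
  rw [uZ, jn_ge _ _ h1, jn_le _ _ h2]
  norm_num [jn, af]
  ring

theorem uZ_b {t : ℝ} (h1 : 203 / 2 ≤ t) (h2 : t ≤ 217 / 2) : uZ t = t - 189 / 2 := by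
  rw [uZ, jn_ge _ _ (by linarith), jn_ge _ _ (by linarith), jn_ge _ _ (by linarith),
    jn_ge _ _ (by linarith), jn_ge _ _ h1, jn_le _ _ h2]
  norm_num [jn, af]
  ring

theorem uZ_c {t : ℝ} (h1 : 271 / 2 ≤ t) (h2 : t ≤ 285 / 2) : uZ t = t - 241 / 2 := by
  rw [uZ, jn_ge _ _ (by linarith), jn_ge _ _ (by linarith), jn_ge _ _ (by linarith),
    jn_ge _ _ (by linarith), jn_ge _ _ (by linarith), jn_ge _ _ (by linarith), jn_ge _ _ h1,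
    jn_le _ _ h2]
  norm_num [jn, af]
  ring

/-- from natural coordinates to unit coordinates -/
def uni (y : R3) (T : ℝ) : R4 := ![uX y.1, uY y.2.1, uZ y.2.2, T - 1 / 2]

/-- the embedding -/
def emb (x : G0.Pts) : R4 := uni (nat x.1.1 x.1.2) x.1.2.2.2.2

theorem emb_0 (x : G0.Pts) : emb x 0 = uX (nat x.1.1 x.1.2).1 := rfl
theorem emb_1 (x : G0.Pts) : emb x 1 = uY (nat x.1.1 x.1.2).2.1 := rfl
theorem emb_2 (x : G0.Pts) : emb x 2 = uZ (nat x.1.1 x.1.2).2.2 := rfl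
theorem emb_3 (x : G0.Pts) : emb x 3 = x.1.2.2.2.2 - 1 / 2 := rfl

theorem emb_inj {x y : G0.Pts} (h : emb x = emb y) :
    nat x.1.1 x.1.2 = nat y.1.1 y.1.2 ∧ x.1.2.2.2.2 = y.1.2.2.2.2 :=
  ⟨Prod.ext (uX_mono.injective (congrFun h 0)) (Prod.ext (uY_mono.injective (congrFun h 1))
    (uZ_mono.injective (congrFun h 2))), sub_left_injective (congrFun h 3)⟩

end Vale.Agent.P215Z.Emb
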